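import Mathlib

/-!
Two arcs in the closed unit disc which start on the circle and otherwise stay in the open disc:
if they do not meet, the two winding integers attached to them differ by the order indicator of
their starting angles.
-/

namespace Vale.Agent.P040

open Set Complex

/-- The integer `k` with `x - φ - 2πk` in `[-π, π)`. -/
noncomputable def turn (φ x : ℝ) : ℤ := round ((x - φ) / (2 * Real.pi))

lemma turn_eq {φ x : ℝ} (k : ℤ) (h1 : -Real.pi < x - φ - 2 * Real.pi * k)
    (h2 : x - φ - 2 * Real.pi * k < Real.pi) : turn φ x = k := by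
  have hp := Real.two_pi_pos
  unfold turn
  rw [round_eq, Int.floor_eq_iff]
  constructor
  · have : (k : ℝ) - 1 / 2 ≤ (x - φ) / (2 * Real.pi) := by
      rw [le_div_iff₀ hp]; nlinarith
    linarith
  · have : (x - φ) / (2 * Real.pi) < (k : ℝ) + 1 / 2 := by
      rw [div_lt_iff₀ hp]; nlinarith
    linarith

lemma turn_add (φ x : ℝ) (k : ℤ) : turn φ (x + 2 * Real.pi * k) = turn φ x + k := by
  unfold turn
  rw [show (x + 2 * Real.pi * k - φ) / (2 * Real.pi) = (x - φ) / (2 * Real.pi) + (k : ℝ) by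
    field_simp
    ring]
  exact round_add_intCast _ k

/-- A continuous real function on a preconnected set which avoids all odd multiples of `π/2`
around `φ` has constant turn number. -/
lemma turn_const {X : Type*} [TopologicalSpace X] {S : Set X} (hS : IsPreconnected S)
    {f : X → ℝ} (hf : ContinuousOn f S) {φ : ℝ} (hc : ∀ x ∈ S, 0 < Real.cos (f x - φ))
    {a b : X} (ha : a ∈ S) (hb : b ∈ S) : turn φ (f a) = turn φ (f b) := by
  have hp := Real.pi_pos
  have range : ∀ x ∈ S, ∀ k : ℤ, f x ≠ φ + Real.pi + 2 * Real.pi * k := by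
    intro x hx k he
    have h := hc x hx
    rw [show f x - φ = Real.pi + (k : ℝ) * (2 * Real.pi) by linarith,
      Real.cos_add_int_mul_two_pi, Real.cos_pi] at h
    linarith
  have key : ∀ a ∈ S, ∀ b ∈ S, f a ≤ f b → turn φ (f a) = turn φ (f b) := by
    intro a ha b hb hab
    by_contra hne
    set k := turn φ (f a) with hk
    have hmono : k ≤ turn φ (f b) := by
      simp only [hk, turn, round_eq]
      gcongr
    have hlt : k + 1 ≤ turn φ (f b) := by omega
    have h1 : (f a - φ) / (2 * Real.pi) < (k : ℝ) + 1 / 2 := by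
      have := Int.lt_floor_add_one ((f a - φ) / (2 * Real.pi) + 1 / 2)
      rw [← round_eq] at this
      change (f a - φ) / (2 * Real.pi) + 1 / 2 < (k : ℝ) + 1 at this
      linarith
    have h2 : (k : ℝ) + 1 / 2 ≤ (f b - φ) / (2 * Real.pi) := by
      have := Int.floor_le ((f b - φ) / (2 * Real.pi) + 1 / 2)
      rw [← round_eq] at this
      change ((turn φ (f b) : ℤ) : ℝ) ≤ _ at this
      have h3 : ((k + 1 : ℤ) : ℝ) ≤ (turn φ (f b) : ℝ) := by exact_mod_cast hlt
      push_cast at h3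
      linarith
    rw [div_lt_iff₀ Real.two_pi_pos] at h1
    rw [le_div_iff₀ Real.two_pi_pos] at h2
    obtain ⟨x, hx, hfx⟩ := hS.intermediate_value ha hb hf
      (show φ + Real.pi + 2 * Real.pi * k ∈ Icc (f a) (f b) from ⟨by nlinarith, by nlinarith⟩)
    exact range x hx k hfx
  rcases le_total (f a) (f b) with h | h
  · exact key a ha b hb h
  · exact (key b hb a ha h).symm

/-- Logarithm lifts on convex sets. -/
lemma exists_log_lift {E : Type*} [NormedAddCommGroup E] [NormedSpace ℝ E] {S : Set E}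
    (hS : Convex ℝ S) {f : E → ℂ} (hf : ContinuousOn f S) (h0 : ∀ x ∈ S, f x ≠ 0)
    {x0 : E} (hx0 : x0 ∈ S) :
    ∃ L : E → ℂ, ContinuousOn L S ∧ (∀ x ∈ S, exp (L x) = f x) ∧ L x0 = log (f x0) := by
  classical
  haveI : ContractibleSpace S := hS.contractibleSpace ⟨x0, hx0⟩
  haveI : LocallyPathConnectedSpace S := hS.locallyPathConnectedSpace
  let F : C(S, {z : ℂ // z ≠ 0}) := ⟨fun x => ⟨f x, h0 x x.2⟩,
    Continuous.subtype_mk hf.restrict _⟩
  obtain ⟨G, ⟨hG0, hG⟩, -⟩ := Complex.isCoveringMap_exp.existsUnique_continuousMap_lifts F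
    ⟨x0, hx0⟩ (log (f x0)) (Subtype.ext (exp_log (h0 x0 hx0)))
  refine ⟨fun x => if h : x ∈ S then G ⟨x, h⟩ else 0, ?_, ?_, ?_⟩
  · rw [continuousOn_iff_continuous_restrict]
    convert G.continuous using 1
    ext x
    simp
  · intro x hx
    have := congrFun hG ⟨x, hx⟩
    simp only [Function.comp_apply] at this
    simp only [dif_pos hx]
    exact congrArg Subtype.val this
  · simpa [hx0] using hG0

/-- Two logarithm lifts of one function on a preconnected set differ by a constant in `2πiℤ`. -/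
lemma log_lift_unique {X : Type*} [TopologicalSpace X] {S : Set X} (hS : IsPreconnected S)
    {L M : X → ℂ} (hL : ContinuousOn L S) (hM : ContinuousOn M S)
    (he : ∀ x ∈ S, exp (L x) = exp (M x)) {a b : X} (ha : a ∈ S) (hb : b ∈ S) :
    (L a).im - (M a).im = (L b).im - (M b).im := by
  have key : ∀ x ∈ S, ∃ k : ℤ, (L x).im - (M x).im = 2 * Real.pi * k := by
    intro x hx
    obtain ⟨k, hk⟩ := exp_eq_exp_iff_exists_int.1 (he x hx)
    exact ⟨k, by rw [hk]; simp; ring⟩
  have hf : ContinuousOn (fun x => (L x).im - (M x).im) S :=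
    (continuous_im.comp_continuousOn hL).sub (continuous_im.comp_continuousOn hM)
  have h := turn_const hS hf (φ := 0) (fun x hx => by
    obtain ⟨k, hk⟩ := key x hx
    rw [hk, sub_zero, show 2 * Real.pi * (k : ℝ) = (k : ℝ) * (2 * Real.pi) by ring,
      Real.cos_int_mul_two_pi]
    norm_num) ha hb
  obtain ⟨k, hk⟩ := key a ha
  obtain ⟨l, hl⟩ := key b hb
  have hp := Real.pi_pos
  have e1 : turn 0 ((L a).im - (M a).im) = k :=
    turn_eq k (by rw [hk]; linarith) (by rw [hk]; linarith)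
  have e2 : turn 0 ((L b).im - (M b).im) = l :=
    turn_eq l (by rw [hl]; linarith) (by rw [hl]; linarith)
  rw [e1, e2] at h
  rw [hk, hl, h]

/-- The point of the unit circle at angle `θ`. -/
noncomputable def circ (θ : ℝ) : ℂ := ⟨Real.cos θ, Real.sin θ⟩

lemma norm_circ (θ : ℝ) : ‖circ θ‖ = 1 := by
  rw [Complex.norm_eq_sqrt_sq_add_sq]
  simp [circ, Real.cos_sq_add_sin_sq]

lemma dot_lt_one {z : ℂ} {θ : ℝ} (hz : ‖z‖ ≤ 1) (hne : z ≠ circ θ) :
    z.re * Real.cos θ + z.im * Real.sin θ < 1 := by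
  have h1 : z.re ^ 2 + z.im ^ 2 ≤ 1 := by
    have h := Complex.sq_norm z
    rw [Complex.normSq_apply] at h
    nlinarith [norm_nonneg z]
  have h2 : 0 < (z.re - Real.cos θ) ^ 2 + (z.im - Real.sin θ) ^ 2 := by
    by_contra hle
    apply hne
    have ha := sq_nonneg (z.re - Real.cos θ)
    have hb := sq_nonneg (z.im - Real.sin θ)
    have e1 : (z.re - Real.cos θ) ^ 2 = 0 := by linarith
    have e2 : (z.im - Real.sin θ) ^ 2 = 0 := by linarith
    exact Complex.ext (sub_eq_zero.1 (by simpa [circ] using e1))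
      (sub_eq_zero.1 (by simpa [circ] using e2))
  nlinarith [Real.cos_sq_add_sin_sq θ]

lemma cos_pos_of_from_boundary {z w : ℂ} {θ : ℝ} (hz : ‖z‖ ≤ 1) (hne : z ≠ circ θ)
    (hw : exp w = z - circ θ) : 0 < Real.cos (w.im - (θ + Real.pi)) := by
  have h := dot_lt_one hz hne
  have hr : z.re - Real.cos θ = Real.exp w.re * Real.cos w.im := by
    rw [← Complex.exp_re, hw]; simp [circ]
  have hi : z.im - Real.sin θ = Real.exp w.re * Real.sin w.im := by
    rw [← Complex.exp_im, hw]; simp [circ]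
  rw [show w.im - (θ + Real.pi) = w.im - θ - Real.pi by ring, Real.cos_sub_pi, Real.cos_sub]
  have key : Real.exp w.re * (Real.cos w.im * Real.cos θ + Real.sin w.im * Real.sin θ)
      = z.re * Real.cos θ + z.im * Real.sin θ - 1 := by
    linear_combination -(Real.cos θ) * hr - (Real.sin θ) * hi + (-1) * Real.cos_sq_add_sin_sq θ
  nlinarith [Real.exp_pos w.re]

lemma cos_pos_to_boundary {z w : ℂ} {θ : ℝ} (hz : ‖z‖ ≤ 1) (hne : z ≠ circ θ)
    (hw : exp w = circ θ - z) : 0 < Real.cos (w.im - θ) := by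
  have h := dot_lt_one hz hne
  have hr : Real.cos θ - z.re = Real.exp w.re * Real.cos w.im := by
    rw [← Complex.exp_re, hw]; simp [circ]
  have hi : Real.sin θ - z.im = Real.exp w.re * Real.sin w.im := by
    rw [← Complex.exp_im, hw]; simp [circ]
  rw [Real.cos_sub]
  have key : Real.exp w.re * (Real.cos w.im * Real.cos θ + Real.sin w.im * Real.sin θ)
      = 1 - (z.re * Real.cos θ + z.im * Real.sin θ) := by
    linear_combination -(Real.cos θ) * hr - (Real.sin θ) * hi + Real.cos_sq_add_sin_sq θ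
  nlinarith [Real.exp_pos w.re]

/-- The turn numbers of a chord of the circle, seen from its two ends. -/
lemma chord_turn {α β : ℝ} (ha : α ∈ Ico 0 (2 * Real.pi)) (hb : β ∈ Ico 0 (2 * Real.pi))
    (hne : α ≠ β) {w : ℂ} (hw : exp w = circ β - circ α) :
    turn β w.im = turn (α + Real.pi) w.im + (if β < α then 1 else 0) := by
  have hp := Real.pi_pos
  set d := (β - α) / 2 with hd
  set m := (β + α) / 2 with hm
  have hr : Real.cos β - Real.cos α = Real.exp w.re * Real.cos w.im := by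
    rw [← Complex.exp_re, hw]; simp [circ]
  have hi : Real.sin β - Real.sin α = Real.exp w.re * Real.sin w.im := by
    rw [← Complex.exp_im, hw]; simp [circ]
  have eb : β = m + d := by rw [hd, hm]; ring
  have ea : α = m - d := by rw [hd, hm]; ring
  rw [eb, ea, Real.cos_add, Real.cos_sub] at hr
  rw [eb, ea, Real.sin_add, Real.sin_sub] at hi
  have hsm := Real.sin_sq_add_cos_sq m
  set y := w.im - m - Real.pi / 2 with hy
  have hcosy : Real.cos y = Real.sin w.im * Real.cos m - Real.cos w.im * Real.sin m := by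
    rw [hy, Real.cos_sub_pi_div_two, Real.sin_sub]
  have hsiny : Real.sin y = -(Real.cos w.im * Real.cos m + Real.sin w.im * Real.sin m) := by
    rw [hy, Real.sin_sub_pi_div_two, Real.cos_sub]
  have A1 : Real.exp w.re * Real.cos y = 2 * Real.sin d := by
    rw [hcosy]; linear_combination (Real.sin m) * hr - (Real.cos m) * hi + (2 * Real.sin d) * hsm
  have A2 : Real.exp w.re * Real.sin y = 0 := by
    rw [hsiny]; linear_combination (Real.cos m) * hr + (Real.sin m) * hi
  have hsy : Real.sin y = 0 := by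
    rcases mul_eq_zero.1 A2 with h | h
    · exact absurd h (Real.exp_pos _).ne'
    · exact h
  obtain ⟨n, hn⟩ := Real.sin_eq_zero_iff.1 hsy
  rcases Int.even_or_odd' n with ⟨k, rfl | rfl⟩
  · push_cast at hn
    have hc : Real.cos y = 1 := by
      rw [← hn, show 2 * (k : ℝ) * Real.pi = (k : ℝ) * (2 * Real.pi) by ring,
        Real.cos_int_mul_two_pi]
    rw [hc] at A1
    have hd0 : 0 < d := by
      by_contra hle
      have : Real.sin d ≤ 0 := Real.sin_nonpos_of_nonpos_of_neg_pi_le (by linarith)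
        (by rw [hd]; linarith [ha.2, hb.1])
      nlinarith [Real.exp_pos w.re]
    have hd1 : d < Real.pi := by rw [hd]; linarith [ha.1, hb.2]
    rw [if_neg (by linarith : ¬ β < α), add_zero,
      turn_eq k (by rw [eb]; linarith) (by rw [eb]; linarith),
      turn_eq k (by rw [ea]; linarith) (by rw [ea]; linarith)]
  · push_cast at hn
    have hc : Real.cos y = -1 := by
      rw [← hn, show (2 * (k : ℝ) + 1) * Real.pi = Real.pi + (k : ℝ) * (2 * Real.pi) by ring,
        Real.cos_add_int_mul_two_pi, Real.cos_pi]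
    rw [hc] at A1
    have hd0 : d < 0 := by
      by_contra hle
      have : 0 ≤ Real.sin d := Real.sin_nonneg_of_nonneg_of_le_pi (by linarith)
        (by rw [hd]; linarith [ha.1, hb.2])
      nlinarith [Real.exp_pos w.re]
    have hd1 : -Real.pi < d := by rw [hd]; linarith [ha.2, hb.1]
    rw [if_pos (by linarith : β < α),
      turn_eq (k + 1) (by push_cast; rw [eb]; linarith) (by push_cast; rw [eb]; linarith),
      turn_eq k (by rw [ea]; linarith) (by rw [ea]; linarith)]

/-- An arc in the disc: it starts at the boundary angle `θ` and then stays in the open disc. -/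
structure DiscArc (γ : ℝ → ℂ) (θ : ℝ) : Prop where
  cont : ContinuousOn γ (Icc 0 1)
  start : γ 0 = circ θ
  inside : ∀ t ∈ Ioc (0 : ℝ) 1, ‖γ t‖ < 1
  angle : θ ∈ Ico 0 (2 * Real.pi)

lemma DiscArc.norm_le {γ : ℝ → ℂ} {θ : ℝ} (h : DiscArc γ θ) {t : ℝ} (ht : t ∈ Icc (0 : ℝ) 1) :
    ‖γ t‖ ≤ 1 := by
  rcases ht.1.eq_or_lt with h0 | h0
  · rw [← h0, h.start, norm_circ]
  · exact (h.inside t ⟨h0, ht.2⟩).le

lemma DiscArc.ne_circ {γ : ℝ → ℂ} {θ : ℝ} (h : DiscArc γ θ) {t : ℝ} (ht : t ∈ Ioc (0 : ℝ) 1)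
    (φ : ℝ) : γ t ≠ circ φ := fun he => by
  have := h.inside t ht
  rw [he, norm_circ] at this
  exact lt_irrefl _ this

lemma circ_ne {α β : ℝ} (ha : α ∈ Ico 0 (2 * Real.pi)) (hb : β ∈ Ico 0 (2 * Real.pi))
    (hne : α ≠ β) : circ α ≠ circ β := by
  intro h
  have hc : Real.cos α = Real.cos β := by simpa [circ] using congrArg Complex.re h
  have hs : Real.sin α = Real.sin β := by simpa [circ] using congrArg Complex.im h
  have h1 : Real.cos (α - β) = 1 := by
    rw [Real.cos_sub, hc, hs]; nlinarith [Real.cos_sq_add_sin_sq β]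
  have := (Real.cos_eq_one_iff_of_lt_of_lt (by linarith [ha.1, hb.2]) (by linarith [ha.2, hb.1])).1 h1
  exact hne (by linarith)

open Classical in
/-- A logarithm lift of `t ↦ z - γ t` on `[0,1]`, principal at `t = 1` (junk if there is none). -/
noncomputable def farLift (γ : ℝ → ℂ) (z : ℂ) : ℝ → ℂ :=
  if h : ContinuousOn γ (Icc 0 1) ∧ ∀ t ∈ Icc (0 : ℝ) 1, γ t ≠ z then
    Classical.choose (exists_log_lift (convex_Icc (0 : ℝ) 1) (f := fun t => z - γ t)
      (continuousOn_const.sub h.1) (fun t ht => sub_ne_zero.2 (h.2 t ht).symm)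
      (show (1 : ℝ) ∈ Icc (0 : ℝ) 1 from ⟨zero_le_one, le_rfl⟩))
  else fun _ => 0

open Classical in
/-- A logarithm lift of `t ↦ γ t - z` on `[0,1]`, principal at `t = 1` (junk if there is none). -/
noncomputable def nearLift (γ : ℝ → ℂ) (z : ℂ) : ℝ → ℂ :=
  if h : ContinuousOn γ (Icc 0 1) ∧ ∀ t ∈ Icc (0 : ℝ) 1, γ t ≠ z then
    Classical.choose (exists_log_lift (convex_Icc (0 : ℝ) 1) (f := fun t => γ t - z)
      (h.1.sub continuousOn_const) (fun t ht => sub_ne_zero.2 (h.2 t ht))
      (show (1 : ℝ) ∈ Icc (0 : ℝ) 1 from ⟨zero_le_one, le_rfl⟩))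
  else fun _ => 0

/-- The winding integer of an arc around the end of another arc. -/
noncomputable def uNum (γ : ℝ → ℂ) (θ : ℝ) (z : ℂ) : ℤ :=
  turn (θ + Real.pi) ((farLift γ z 0).im)

/-- The winding integer of an arc around the end of another arc, other orientation. -/
noncomputable def vNum (γ : ℝ → ℂ) (θ : ℝ) (z : ℂ) : ℤ :=
  turn θ ((nearLift γ z 0).im)

/-- Two disc arcs that do not meet have consistent winding integers. -/
theorem winding_of_disjoint {g h : ℝ → ℂ} {α β : ℝ} (hg : DiscArc g α) (hh : DiscArc h β)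
    (hne : α ≠ β) (hdis : ∀ t ∈ Ioc (0 : ℝ) 1, ∀ s ∈ Ioc (0 : ℝ) 1, g t ≠ h s) :
    vNum h β (g 1) = uNum g α (h 1) + (if β < α then 1 else 0) := by
  have one : (1 : ℝ) ∈ Icc (0 : ℝ) 1 := ⟨zero_le_one, le_rfl⟩
  have zero : (0 : ℝ) ∈ Icc (0 : ℝ) 1 := ⟨le_rfl, zero_le_one⟩
  have hall : ∀ t ∈ Icc (0 : ℝ) 1, ∀ s ∈ Icc (0 : ℝ) 1, g t ≠ h s := by
    intro t ht s hs
    rcases ht.1.eq_or_lt with t0 | t0 <;> rcases hs.1.eq_or_lt with s0 | s0
    · rw [← t0, ← s0, hg.start, hh.start]; exact circ_ne hg.angle hh.angle hne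
    · rw [← t0, hg.start]; exact (hh.ne_circ ⟨s0, hs.2⟩ α).symm
    · rw [← s0, hh.start]; exact hg.ne_circ ⟨t0, ht.2⟩ β
    · exact hdis t ⟨t0, ht.2⟩ s ⟨s0, hs.2⟩
  set Q : Set (ℝ × ℝ) := Icc 0 1 ×ˢ Icc 0 1 with hQdef
  have hf : ContinuousOn (fun p : ℝ × ℝ => h p.2 - g p.1) Q :=
    (hh.cont.comp continuous_snd.continuousOn (fun p hp => hp.2)).sub
      (hg.cont.comp continuous_fst.continuousOn (fun p hp => hp.1))
  obtain ⟨L, hLc, hLe, hL1⟩ := exists_log_lift ((convex_Icc (0 : ℝ) 1).prod (convex_Icc 0 1))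
    hf (fun p hp => sub_ne_zero.2 (hall p.1 hp.1 p.2 hp.2).symm)
    (show ((1 : ℝ), (1 : ℝ)) ∈ Q from ⟨one, one⟩)
  have hgz : ContinuousOn g (Icc 0 1) ∧ ∀ t ∈ Icc (0 : ℝ) 1, g t ≠ h 1 :=
    ⟨hg.cont, fun t ht => hall t ht 1 one⟩
  have hhz : ContinuousOn h (Icc 0 1) ∧ ∀ t ∈ Icc (0 : ℝ) 1, h t ≠ g 1 :=
    ⟨hh.cont, fun t ht => (hall 1 one t ht).symm⟩
  obtain ⟨Fc, Fe, F1⟩ : ContinuousOn (farLift g (h 1)) (Icc 0 1) ∧
      (∀ t ∈ Icc (0 : ℝ) 1, exp (farLift g (h 1) t) = h 1 - g t) ∧
      farLift g (h 1) 1 = log (h 1 - g 1) := by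
    rw [farLift, dif_pos hgz]
    exact Classical.choose_spec (exists_log_lift (convex_Icc (0 : ℝ) 1) (f := fun t => h 1 - g t)
      (continuousOn_const.sub hgz.1) (fun t ht => sub_ne_zero.2 (hgz.2 t ht).symm) one)
  obtain ⟨Nc, Ne', N1⟩ : ContinuousOn (nearLift h (g 1)) (Icc 0 1) ∧
      (∀ t ∈ Icc (0 : ℝ) 1, exp (nearLift h (g 1) t) = h t - g 1) ∧
      nearLift h (g 1) 1 = log (h 1 - g 1) := by
    rw [nearLift, dif_pos hhz]
    exact Classical.choose_spec (exists_log_lift (convex_Icc (0 : ℝ) 1) (f := fun t => h t - g 1)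
      (hhz.1.sub continuousOn_const) (fun t ht => sub_ne_zero.2 (hhz.2 t ht)) one)
  have sTop : ContinuousOn (fun t : ℝ => L (t, 1)) (Icc 0 1) :=
    hLc.comp (by fun_prop) (fun t ht => ⟨ht, one⟩)
  have sRight : ContinuousOn (fun s : ℝ => L (1, s)) (Icc 0 1) :=
    hLc.comp (by fun_prop) (fun s hs => ⟨one, hs⟩)
  have sLeft : ContinuousOn (fun s : ℝ => L (0, s)) (Icc 0 1) :=
    hLc.comp (by fun_prop) (fun s hs => ⟨zero, hs⟩)
  have sBot : ContinuousOn (fun t : ℝ => L (t, 0)) (Icc 0 1) :=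
    hLc.comp (by fun_prop) (fun t ht => ⟨ht, zero⟩)
  have eTop := log_lift_unique isPreconnected_Icc sTop Fc
    (fun t ht => by rw [hLe (t, 1) ⟨ht, one⟩, Fe t ht]) zero one
  have eRight := log_lift_unique isPreconnected_Icc sRight Nc
    (fun s hs => by rw [hLe (1, s) ⟨one, hs⟩, Ne' s hs]) zero one
  simp only [hL1, F1, N1, sub_self] at eTop eRight
  have u_eq : turn (α + Real.pi) ((L (0, 0)).im) = uNum g α (h 1) := by
    have := turn_const isPreconnected_Icc (continuous_im.comp_continuousOn sLeft)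
      (φ := α + Real.pi) (fun s hs => by
        have he := hLe (0, s) ⟨zero, hs⟩
        simp only [hg.start] at he
        exact cos_pos_of_from_boundary (hh.norm_le hs)
          (by simpa [hg.start] using (hall 0 zero s hs).symm) he) zero one
    simp only [Function.comp_apply] at this
    rw [this, uNum, sub_eq_zero.1 eTop]
  have v_eq : turn β ((L (0, 0)).im) = vNum h β (g 1) := by
    have := turn_const isPreconnected_Icc (continuous_im.comp_continuousOn sBot)
      (φ := β) (fun t ht => by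
        have he := hLe (t, 0) ⟨ht, zero⟩
        simp only [hh.start] at he
        exact cos_pos_to_boundary (hg.norm_le ht)
          (by simpa [hh.start] using hall t ht 0 zero) he) zero one
    simp only [Function.comp_apply] at this
    rw [this, vNum, sub_eq_zero.1 eRight]
  have he := hLe (0, 0) ⟨zero, zero⟩
  simp only [hg.start, hh.start] at he
  rw [← u_eq, ← v_eq]
  exact chord_turn hg.angle hh.angle hne he

end Vale.Agent.P040
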