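import Mathlib
import Vale.Agent.P040.Winding

/-!
The map from the complement of the unit segment to the open disc, and its boundary values along
arcs ending on the segment.
-/

namespace Vale.Agent.P040

open Set Filter Complex Topology

/-- The closed segment from `0` to `1` in the plane. -/
def unitSeg : Set ℂ := {z | z.im = 0 ∧ 0 ≤ z.re ∧ z.re ≤ 1}

/-- The ratio `(z - 1)/z`. -/
noncomputable def ratio (z : ℂ) : ℂ := (z - 1) / z

/-- Square root on the closed upper half plane. -/
noncomputable def sU (w : ℂ) : ℂ :=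
  ⟨Real.sqrt ((‖w‖ + w.re) / 2), Real.sqrt ((‖w‖ - w.re) / 2)⟩

/-- Square root with nonnegative real part. -/
noncomputable def csq (w : ℂ) : ℂ := if 0 ≤ w.im then sU w else (starRingEnd ℂ) (sU w)

/-- The slit map. -/
noncomputable def slit (z : ℂ) : ℂ :=
  if z = 0 then 1 else (csq (ratio z) - 1) / (csq (ratio z) + 1)

lemma continuous_sU : Continuous sU := by
  have h : sU = fun w : ℂ => ((Real.sqrt ((‖w‖ + w.re) / 2) : ℝ) : ℂ)
      + ((Real.sqrt ((‖w‖ - w.re) / 2) : ℝ) : ℂ) * I := by
    funext w
    exact (Complex.re_add_im (sU w)).symm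
  rw [h]
  fun_prop

lemma sU_sq (w : ℂ) : sU w * sU w = ⟨w.re, |w.im|⟩ := by
  have h1 := Complex.abs_re_le_norm w
  rw [abs_le] at h1
  have a := Real.mul_self_sqrt (show 0 ≤ (‖w‖ + w.re) / 2 by linarith)
  have b := Real.mul_self_sqrt (show 0 ≤ (‖w‖ - w.re) / 2 by linarith)
  apply Complex.ext
  · simp only [Complex.mul_re, sU]
    linarith
  · simp only [Complex.mul_im, sU]
    have e : Real.sqrt ((‖w‖ + w.re) / 2) * Real.sqrt ((‖w‖ - w.re) / 2)
        = |w.im| / 2 := by
      rw [← Real.sqrt_mul (by linarith)]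
      have : (‖w‖ + w.re) / 2 * ((‖w‖ - w.re) / 2) = (|w.im| / 2) ^ 2 := by
        have h2 := Complex.sq_norm w
        rw [Complex.normSq_apply] at h2
        rw [div_pow, sq_abs]
        nlinarith
      rw [this, Real.sqrt_sq (by positivity)]
    linarith

lemma csq_sq (w : ℂ) : csq w * csq w = w := by
  unfold csq
  by_cases h : 0 ≤ w.im
  · rw [if_pos h, sU_sq]
    exact Complex.ext rfl (abs_of_nonneg h)
  · rw [if_neg h, ← map_mul, sU_sq]
    exact Complex.ext (by simp) (by simp [abs_of_neg (not_le.1 h)])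

lemma csq_re_pos {w : ℂ} (hw : w ∈ slitPlane) : 0 < (csq w).re := by
  have : (csq w).re = Real.sqrt ((‖w‖ + w.re) / 2) := by
    unfold csq
    split_ifs <;> simp [sU]
  rw [this]
  apply Real.sqrt_pos.2
  rw [mem_slitPlane_iff] at hw
  have h2 := Complex.sq_norm w
  rw [Complex.normSq_apply] at h2
  rcases hw with h | h
  · linarith [norm_nonneg w]
  · have : 0 < w.im * w.im := mul_self_pos.2 h
    nlinarith [norm_nonneg w]

lemma continuousAt_csq {w : ℂ} (hw : w ∈ slitPlane) : ContinuousAt csq w := by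
  have hc : Continuous (fun v => (starRingEnd ℂ) (sU v)) := continuous_conj.comp continuous_sU
  rcases lt_trichotomy w.im 0 with h | h | h
  · apply hc.continuousAt.congr
    filter_upwards [(isOpen_lt continuous_im continuous_const).mem_nhds h] with v hv
    simp [csq, not_le.2 (show v.im < 0 from hv)]
  · have hre : 0 < w.re := by
      rw [mem_slitPlane_iff] at hw
      rcases hw with h' | h'
      · exact h'
      · exact absurd h h'
    have e : (starRingEnd ℂ) (sU w) = sU w := by
      have hn : ‖w‖ = w.re := by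
        rw [Complex.norm_eq_sqrt_sq_add_sq, h]
        simp [Real.sqrt_sq hre.le]
      apply Complex.ext <;> simp [sU, hn]
    have hval : csq w = sU w := by simp [csq, h.ge]
    rw [ContinuousAt, hval]
    refine Tendsto.if' continuous_sU.continuousAt ?_
    have := hc.continuousAt (x := w)
    rwa [ContinuousAt, e] at this
  · apply continuous_sU.continuousAt.congr
    filter_upwards [(isOpen_lt continuous_const continuous_im).mem_nhds h] with v hv
    simp [csq, (show 0 < v.im from hv).le]

lemma ratio_mem_slitPlane {z : ℂ} (hz : z ∉ unitSeg) : ratio z ∈ slitPlane := by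
  have h0 : z ≠ 0 := fun h => hz (by simp [h, unitSeg])
  have hn : 0 < normSq z := normSq_pos.2 h0
  have hre : (ratio z).re = ((z.re - 1) * z.re + z.im * z.im) / normSq z := by
    simp [ratio, Complex.div_re]
    ring
  have him : (ratio z).im = z.im / normSq z := by
    simp [ratio, Complex.div_im]
    ring
  rw [mem_slitPlane_iff]
  by_cases hi : z.im = 0
  · left
    rw [hre]
    apply div_pos _ hn
    rw [hi]
    simp only [mul_zero, add_zero]
    by_contra hle
    apply hz
    refine ⟨hi, ?_, ?_⟩ <;> nlinarith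
  · right
    rw [him]
    exact div_ne_zero hi hn.ne'

lemma slit_continuousAt {z : ℂ} (hz : z ∉ unitSeg) : ContinuousAt slit z := by
  have h0 : z ≠ 0 := fun h => hz (by simp [h, unitSeg])
  have hs := ratio_mem_slitPlane hz
  have hr : ContinuousAt ratio z := (continuousAt_id.sub continuousAt_const).div continuousAt_id h0
  have hc : ContinuousAt (fun v => csq (ratio v)) z := (continuousAt_csq hs).comp hr
  have hden : csq (ratio z) + 1 ≠ 0 := fun h => by
    have := csq_re_pos hs
    have h' := congrArg Complex.re h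
    simp at h'
    linarith
  apply ((hc.sub (continuousAt_const (y := (1 : ℂ)))).div (hc.add continuousAt_const) hden).congr
  filter_upwards [isOpen_ne.mem_nhds h0] with v hv
  simp [slit, show v ≠ 0 from hv]

lemma slit_norm_lt {z : ℂ} (hz : z ∉ unitSeg) : ‖slit z‖ < 1 := by
  have h0 : z ≠ 0 := fun h => hz (by simp [h, unitSeg])
  have hp := csq_re_pos (ratio_mem_slitPlane hz)
  rw [slit, if_neg h0, norm_div]
  have hlt : ‖csq (ratio z) - 1‖ < ‖csq (ratio z) + 1‖ := by
    rw [← sq_lt_sq₀ (norm_nonneg _) (norm_nonneg _), Complex.sq_norm, Complex.sq_norm,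
      Complex.normSq_apply, Complex.normSq_apply]
    simp
    nlinarith
  rw [div_lt_one (lt_of_le_of_lt (norm_nonneg _) hlt)]
  exact hlt

lemma slit_inj {z w : ℂ} (hz : z ∉ unitSeg) (hw : w ∉ unitSeg) (h : slit z = slit w) : z = w := by
  have z0 : z ≠ 0 := fun h => hz (by simp [h, unitSeg])
  have w0 : w ≠ 0 := fun h => hw (by simp [h, unitSeg])
  have den : ∀ v, v ∉ unitSeg → csq (ratio v) + 1 ≠ 0 := by
    intro v hv e
    have := csq_re_pos (ratio_mem_slitPlane hv)
    have h' := congrArg Complex.re e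
    simp at h'
    linarith
  rw [slit, if_neg z0, slit, if_neg w0, div_eq_div_iff (den z hz) (den w hw)] at h
  have e : csq (ratio z) = csq (ratio w) := by linear_combination h / 2
  have e2 : ratio z = ratio w := by rw [← csq_sq (ratio z), e, csq_sq]
  rw [ratio, ratio, div_eq_div_iff z0 w0] at e2
  linear_combination e2

/-- The boundary angle of the segment point `x`, seen from below if `s` is true. -/
noncomputable def pos (x : ℝ) (s : Bool) : ℝ :=
  if x = 0 then 0 else if s then Real.pi + 2 * Real.arctan (Real.sqrt ((1 - x) / x))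
  else Real.pi - 2 * Real.arctan (Real.sqrt ((1 - x) / x))

lemma pos_mem {x : ℝ} (s : Bool) : pos x s ∈ Ico 0 (2 * Real.pi) := by
  have hp := Real.pi_pos
  have h1 := Real.arctan_lt_pi_div_two (Real.sqrt ((1 - x) / x))
  have h2 : 0 ≤ Real.arctan (Real.sqrt ((1 - x) / x)) := by
    rw [← Real.arctan_zero]
    exact Real.arctan_strictMono.monotone (Real.sqrt_nonneg _)
  unfold pos
  rw [mem_Ico]
  split_ifs <;> constructor <;> linarith

/-- The order of boundary angles. -/
lemma pos_order {x y : ℝ} {s s' : Bool} (hx : 0 ≤ x) (hxy : x < y) (hy : y ≤ 1)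
    (hs : s = true → 0 < x) :
    (pos x s < pos y s' ↔ s = false) ∧ (pos y s' < pos x s ↔ s = true) := by
  have hp := Real.pi_pos
  have hy0 : y ≠ 0 := by linarith
  have y1 := Real.arctan_lt_pi_div_two (Real.sqrt ((1 - y) / y))
  have y2 : 0 ≤ Real.arctan (Real.sqrt ((1 - y) / y)) := by
    rw [← Real.arctan_zero]
    exact Real.arctan_strictMono.monotone (Real.sqrt_nonneg _)
  rcases hx.eq_or_lt with h0 | h0
  · have hsf : s = false := by
      rcases Bool.eq_false_or_eq_true s with h | h
      · exact absurd (hs h) (by linarith)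
      · exact h
    subst hsf
    have hlt : pos x false < pos y s' := by
      simp only [pos, if_pos h0.symm, if_neg hy0]
      split_ifs <;> linarith
    exact ⟨by simp [hlt], by simp [hlt.le]⟩
  · have x2 : 0 < Real.arctan (Real.sqrt ((1 - x) / x)) := by
      rw [← Real.arctan_zero]
      exact Real.arctan_strictMono (Real.sqrt_pos.2 (div_pos (by linarith) h0))
    have hlt : Real.arctan (Real.sqrt ((1 - y) / y)) < Real.arctan (Real.sqrt ((1 - x) / x)) := by
      apply Real.arctan_strictMono
      apply Real.sqrt_lt_sqrt (div_nonneg (by linarith) (by linarith))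
      rw [div_lt_div_iff₀ (by linarith) h0]
      nlinarith
    cases s
    · have h : pos x false < pos y s' := by
        simp only [pos, if_neg h0.ne', if_neg hy0, Bool.false_eq_true, if_false]
        split_ifs <;> linarith
      exact ⟨by simp [h], by simp [h.le]⟩
    · have h : pos y s' < pos x true := by
        simp only [pos, if_neg h0.ne', if_neg hy0, if_true]
        split_ifs <;> linarith
      exact ⟨by simp [h.le], by simp [h]⟩

lemma circ_pi_sub (τ : ℝ) :
    circ (Real.pi - 2 * Real.arctan τ) = ((⟨0, τ⟩ : ℂ) - 1) / ((⟨0, τ⟩ : ℂ) + 1) ∧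
    circ (Real.pi + 2 * Real.arctan τ) = ((⟨0, -τ⟩ : ℂ) - 1) / ((⟨0, -τ⟩ : ℂ) + 1) := by
  have hpos : (0 : ℝ) < 1 + τ ^ 2 := by positivity
  have hc := Real.cos_sq_arctan τ
  have hs : Real.sin (Real.arctan τ) = τ * Real.cos (Real.arctan τ) := by
    rw [← Real.tan_mul_cos (Real.cos_arctan_pos τ).ne', Real.tan_arctan]
  have e1 : Real.cos (2 * Real.arctan τ) = (1 - τ ^ 2) / (1 + τ ^ 2) := by
    rw [Real.cos_two_mul, hc]
    field_simp
    ring
  have e2 : Real.sin (2 * Real.arctan τ) = 2 * τ / (1 + τ ^ 2) := by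
    rw [Real.sin_two_mul, hs,
      show 2 * (τ * Real.cos (Real.arctan τ)) * Real.cos (Real.arctan τ)
        = 2 * τ * Real.cos (Real.arctan τ) ^ 2 by ring, hc]
    field_simp
  constructor
  · apply Complex.ext
    · simp [circ, Real.cos_pi_sub, e1, Complex.div_re, Complex.normSq_apply]
      field_simp
      ring
    · simp [circ, Real.sin_pi_sub, e2, Complex.div_im, Complex.normSq_apply]
      field_simp
      ring
  · apply Complex.ext
    · simp [circ, Real.cos_add, e1, Complex.div_re, Complex.normSq_apply]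
      field_simp
      ring
    · simp [circ, Real.sin_add, e2, Complex.div_im, Complex.normSq_apply]
      field_simp
      ring

/-- An arc that starts at a point of the segment and then stays off it. -/
structure SlitArc (γ : ℝ → ℂ) : Prop where
  cont : ContinuousOn γ (Icc 0 1)
  start : γ 0 ∈ unitSeg
  off : ∀ t ∈ Ioc (0 : ℝ) 1, γ t ∉ unitSeg

open Classical in
/-- True if the arc leaves an interior point of the segment downwards. -/
noncomputable def side (γ : ℝ → ℂ) : Bool :=
  decide (0 < (γ 0).re ∧ (γ 0).re < 1 ∧ ∀ᶠ t in 𝓝[>] (0 : ℝ), (γ t).im < 0)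

lemma side_true {γ : ℝ → ℂ} (h : side γ = true) : 0 < (γ 0).re ∧ (γ 0).re < 1 := by
  simp only [side, decide_eq_true_eq] at h
  exact ⟨h.1, h.2.1⟩

open Classical in
/-- The image of an arc in the disc. -/
noncomputable def discImage (γ : ℝ → ℂ) (t : ℝ) : ℂ :=
  if t ≤ 0 then circ (pos (γ 0).re (side γ)) else slit (γ t)

lemma csq_norm (w : ℂ) : ‖csq w‖ = Real.sqrt ‖w‖ := by
  have h : ‖csq w‖ * ‖csq w‖ = ‖w‖ := by rw [← norm_mul, csq_sq]
  conv_rhs => rw [← h]
  exact (Real.sqrt_mul_self (norm_nonneg _)).symm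

lemma discImage_tendsto {γ : ℝ → ℂ} (hγ : SlitArc γ) :
    Tendsto (fun t => slit (γ t)) (𝓝[>] (0 : ℝ)) (𝓝 (circ (pos (γ 0).re (side γ)))) := by
  obtain ⟨hi, hx0, hx1⟩ := hγ.start
  have hI : Icc (0 : ℝ) 1 ∈ 𝓝[>] (0 : ℝ) :=
    mem_of_superset (Ioc_mem_nhdsGT zero_lt_one) Ioc_subset_Icc_self
  have ht : Tendsto γ (𝓝[>] (0 : ℝ)) (𝓝 (γ 0)) := by
    have := hγ.cont 0 ⟨le_rfl, zero_le_one⟩
    exact this.mono_left (nhdsWithin_le_of_mem hI)
  have hoff : ∀ᶠ t in 𝓝[>] (0 : ℝ), γ t ∉ unitSeg := by
    filter_upwards [Ioc_mem_nhdsGT zero_lt_one] with t ht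
    exact hγ.off t ht
  have hne0 : ∀ᶠ t in 𝓝[>] (0 : ℝ), γ t ≠ 0 := by
    filter_upwards [hoff] with t h e
    exact h (by simp [e, unitSeg])
  have hx : γ 0 = ((γ 0).re : ℂ) := Complex.ext (by simp) (by simp [hi])
  by_cases e0 : (γ 0).re = 0
  · have hγ0 : γ 0 = 0 := by rw [hx, e0]; simp
    have hpos : pos (γ 0).re (side γ) = 0 := by simp [pos, e0]
    rw [hpos]
    have hval : circ 0 = ((1 : ℂ) - 0) / (1 + 0) := by apply Complex.ext <;> simp [circ]
    rw [hval]
    have hu : Tendsto (fun t => (csq (ratio (γ t)))⁻¹) (𝓝[>] (0 : ℝ)) (𝓝 0) := by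
      rw [tendsto_zero_iff_norm_tendsto_zero]
      have h1 : Tendsto (fun t => Real.sqrt ‖γ t / (γ t - 1)‖) (𝓝[>] (0 : ℝ)) (𝓝 0) := by
        have : Tendsto (fun t => γ t / (γ t - 1)) (𝓝[>] (0 : ℝ)) (𝓝 (γ 0 / (γ 0 - 1))) :=
          ht.div (ht.sub_const 1) (by rw [hγ0]; simp)
        have := this.norm.sqrt
        simpa [hγ0] using this
      refine h1.congr fun t => ?_
      rw [norm_inv, csq_norm, ← Real.sqrt_inv, ← norm_inv, ratio, inv_div]
    have hd : Tendsto (fun t => ((1 : ℂ) - (csq (ratio (γ t)))⁻¹) / (1 + (csq (ratio (γ t)))⁻¹))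
        (𝓝[>] (0 : ℝ)) (𝓝 ((1 - 0) / (1 + 0))) :=
      (tendsto_const_nhds.sub hu).div (tendsto_const_nhds.add hu) (by simp)
    refine hd.congr' ?_
    filter_upwards [hoff, hne0] with t h1 h2
    have hs := csq_re_pos (ratio_mem_slitPlane h1)
    have hne : csq (ratio (γ t)) ≠ 0 := fun e => by rw [e] at hs; simp at hs
    have hne' : csq (ratio (γ t)) + 1 ≠ 0 := fun e => by
      have h' := congrArg Complex.re e
      simp at h'
      linarith
    rw [slit, if_neg h2]
    field_simp
  · have hg0 : γ 0 ≠ 0 := fun e => e0 (by rw [e]; simp)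
    have hr : Tendsto (fun t => ratio (γ t)) (𝓝[>] (0 : ℝ)) (𝓝 (ratio (γ 0))) :=
      (ht.sub_const 1).div ht hg0
    have fin : ∀ s : ℂ, s + 1 ≠ 0 →
        Tendsto (fun t => csq (ratio (γ t))) (𝓝[>] (0 : ℝ)) (𝓝 s) →
        Tendsto (fun t => slit (γ t)) (𝓝[>] (0 : ℝ)) (𝓝 ((s - 1) / (s + 1))) := by
      intro s hs1 hs
      refine ((hs.sub_const 1).div (hs.add_const 1) hs1).congr' ?_
      filter_upwards [hne0] with t h
      simp [slit, h]
    by_cases e1 : (γ 0).re = 1
    · have hr0 : ratio (γ 0) = 0 := by rw [hx, e1]; simp [ratio]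
      have hs : Tendsto (fun t => csq (ratio (γ t))) (𝓝[>] (0 : ℝ)) (𝓝 0) := by
        rw [tendsto_zero_iff_norm_tendsto_zero]
        have := hr.norm.sqrt
        simpa [hr0, csq_norm] using this
      have := fin 0 (by simp) hs
      convert this using 2
      apply Complex.ext <;> simp [circ, pos, e0, e1]
    · have hxp : 0 < (γ 0).re := lt_of_le_of_ne hx0 (Ne.symm e0)
      have hxl : (γ 0).re < 1 := lt_of_le_of_ne hx1 e1
      set x := (γ 0).re with hxdef
      set τ := Real.sqrt ((1 - x) / x) with hτ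
      have hr0 : ratio (γ 0) = ((-((1 - x) / x) : ℝ) : ℂ) := by
        rw [hx, ratio]
        push_cast
        field_simp
        ring
      have hsU : sU (ratio (γ 0)) = ⟨0, τ⟩ := by
        have hq : 0 < (1 - x) / x := div_pos (by linarith) hxp
        rw [hr0]
        apply Complex.ext
        · simp only [sU, Complex.norm_real, Real.norm_eq_abs, Complex.ofReal_re]
          rw [abs_of_neg (by linarith), neg_neg, add_neg_cancel]
          simp
        · simp only [sU, Complex.norm_real, Real.norm_eq_abs, Complex.ofReal_re]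
          rw [abs_of_neg (by linarith), neg_neg, hτ]
          congr 1
          ring
      have him : ∀ t, (ratio (γ t)).im = (γ t).im / normSq (γ t) := by
        intro t
        simp [ratio, Complex.div_im]
        ring
      -- the sign of the imaginary part is constant near `0`
      have hball : ∀ᶠ t in 𝓝[>] (0 : ℝ), 0 < (γ t).re ∧ (γ t).re < 1 := by
        have hre : Tendsto (fun t => (γ t).re) (𝓝[>] (0 : ℝ)) (𝓝 x) :=
          (continuous_re.tendsto _).comp ht
        exact hre.eventually ((isOpen_Ioo (a := (0 : ℝ)) (b := 1)).mem_nhds ⟨hxp, hxl⟩)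
      have him0 : ∀ᶠ t in 𝓝[>] (0 : ℝ), (γ t).im ≠ 0 ∧ t ∈ Icc (0 : ℝ) 1 := by
        filter_upwards [hball, hoff, hI] with t h1 h2 h3
        exact ⟨fun e => h2 ⟨e, h1.1.le, h1.2.le⟩, h3⟩
      obtain ⟨ε, hε, hsub⟩ := mem_nhdsGT_iff_exists_Ioo_subset.1 him0
      have hnhds : Ioo 0 ε ∈ 𝓝[>] (0 : ℝ) := Ioo_mem_nhdsGT hε
      have hcon : ContinuousOn (fun t => (γ t).im) (Ioo 0 ε) :=
        continuous_im.comp_continuousOn (hγ.cont.mono fun t ht => (hsub ht).2)
      have hsign : (∀ t ∈ Ioo (0 : ℝ) ε, (γ t).im < 0) ∨ (∀ t ∈ Ioo (0 : ℝ) ε, 0 < (γ t).im) := by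
        by_contra hno
        simp only [not_or, not_forall, not_lt] at hno
        obtain ⟨⟨a, ha, h1⟩, b, hb, h2⟩ := hno
        obtain ⟨c, hc, hc0⟩ := isPreconnected_Ioo.intermediate_value hb ha hcon
          (show (0 : ℝ) ∈ Icc (γ b).im (γ a).im from ⟨h2, h1⟩)
        exact (hsub hc).1 hc0
      rcases hsign with hneg | hpos
      · have hside : side γ = true := by
          simp only [side, decide_eq_true_eq]
          exact ⟨hxp, hxl, eventually_of_mem hnhds hneg⟩
        rw [hside, pos, if_neg hxp.ne', if_pos rfl, (circ_pi_sub τ).2]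
        refine fin _ (fun e => ?_) ?_
        · have := congrArg Complex.re e
          simp at this
        have hc : Tendsto (fun t => (starRingEnd ℂ) (sU (ratio (γ t)))) (𝓝[>] (0 : ℝ))
            (𝓝 ((starRingEnd ℂ) (sU (ratio (γ 0))))) :=
          ((continuous_conj.comp continuous_sU).tendsto _).comp hr
        rw [hsU] at hc
        have he : ((starRingEnd ℂ) (⟨0, τ⟩ : ℂ)) = ⟨0, -τ⟩ := by apply Complex.ext <;> simp
        rw [he] at hc
        refine hc.congr' ?_
        filter_upwards [hnhds, hne0] with t ht1 ht2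
        rw [csq, if_neg]
        rw [him]
        exact not_le.2 (div_neg_of_neg_of_pos (hneg t ht1) (normSq_pos.2 ht2))
      · have hside : side γ = false := by
          simp only [side, decide_eq_false_iff_not, not_and]
          intro _ _ hev
          obtain ⟨t, h1, h2⟩ := (hev.and (eventually_of_mem hnhds hpos)).exists
          linarith
        rw [hside, pos, if_neg hxp.ne', if_neg Bool.false_ne_true, (circ_pi_sub τ).1]
        refine fin _ (fun e => ?_) ?_
        · have := congrArg Complex.re e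
          simp at this
        have hc : Tendsto (fun t => sU (ratio (γ t))) (𝓝[>] (0 : ℝ)) (𝓝 (sU (ratio (γ 0)))) :=
          (continuous_sU.tendsto _).comp hr
        rw [hsU] at hc
        refine hc.congr' ?_
        filter_upwards [hnhds, hne0] with t ht1 ht2
        rw [csq, if_pos]
        rw [him]
        exact (div_pos (hpos t ht1) (normSq_pos.2 ht2)).le

lemma discImage_arc {γ : ℝ → ℂ} (hγ : SlitArc γ) :
    DiscArc (discImage γ) (pos (γ 0).re (side γ)) := by
  refine ⟨?_, by simp [discImage], ?_, pos_mem _⟩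
  · intro t ht
    rcases ht.1.eq_or_lt with h | h
    · subst h
      have hval : discImage γ 0 = circ (pos (γ 0).re (side γ)) := by simp [discImage]
      have h1 : Tendsto (discImage γ) (𝓝[>] (0 : ℝ)) (𝓝 (discImage γ 0)) := by
        rw [hval]
        refine (discImage_tendsto hγ).congr' ?_
        filter_upwards [self_mem_nhdsWithin] with s hs
        simp [discImage, not_le.2 (show (0 : ℝ) < s from hs)]
      have h2 : ContinuousWithinAt (discImage γ) (Ioi 0) 0 := h1
      exact (continuousWithinAt_Ioi_iff_Ici.1 h2).mono Icc_subset_Ici_self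
    · have hs : ContinuousWithinAt (fun s => slit (γ s)) (Icc 0 1) t :=
        (slit_continuousAt (hγ.off t ⟨h, ht.2⟩)).comp_continuousWithinAt (hγ.cont t ht)
      refine hs.congr_of_eventuallyEq ?_ (by simp [discImage, not_le.2 h])
      filter_upwards [nhdsWithin_le_nhds (Ioi_mem_nhds h)] with s hs
      simp [discImage, not_le.2 (show (0 : ℝ) < s from hs)]
  · intro t ht
    rw [discImage, if_neg (not_le.2 ht.1)]
    exact slit_norm_lt (hγ.off t ht)

end Vale.Agent.P040
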