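import Mathlib
import Vale.Agent.P040.SlitMap

/-!
Charts of the complement of a straightenable arc, and the winding numbers of loops touching the
arc in one point.
-/

namespace Vale.Agent.P040

open Set Filter Complex Topology

/-- The concatenation `e`, `c`, reversed `e'`. -/
noncomputable def concat3 (e c e' : ℝ → ℂ) (t : ℝ) : ℂ :=
  if t ≤ 1 / 3 then e (3 * t) else if t ≤ 2 / 3 then c (3 * t - 1) else e' (3 - 3 * t)

lemma concat3_left (e c e' : ℝ → ℂ) {t : ℝ} (ht : t ≤ 1 / 3) :
    concat3 e c e' t = e (3 * t) := by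
  simp only [concat3, if_pos ht]

lemma concat3_mid (e c e' : ℝ → ℂ) (h1 : e 1 = c 0) {t : ℝ} (ha : 1 / 3 ≤ t) (hb : t ≤ 2 / 3) :
    concat3 e c e' t = c (3 * t - 1) := by
  unfold concat3
  by_cases ht : t ≤ 1 / 3
  · have : t = 1 / 3 := le_antisymm ht ha
    subst this
    norm_num [h1]
  · rw [if_neg ht, if_pos hb]

lemma concat3_right (e c e' : ℝ → ℂ) (h2 : c 1 = e' 1) {t : ℝ} (ha : 2 / 3 ≤ t) :
    concat3 e c e' t = e' (3 - 3 * t) := by
  unfold concat3
  rw [if_neg (by linarith : ¬ t ≤ 1 / 3)]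
  by_cases hb : t ≤ 2 / 3
  · have : t = 2 / 3 := le_antisymm hb ha
    subst this
    norm_num [h2]
  · rw [if_neg hb]

lemma concat3_zero (e c e' : ℝ → ℂ) : concat3 e c e' 0 = e 0 := by
  rw [concat3_left _ _ _ (by norm_num)]
  simp

lemma concat3_one (e c e' : ℝ → ℂ) : concat3 e c e' 1 = e' 0 := by
  unfold concat3
  norm_num

lemma concat3_cases (e c e' : ℝ → ℂ) (h1 : e 1 = c 0) (h2 : c 1 = e' 1) {t : ℝ}
    (ht : t ∈ Icc (0 : ℝ) 1) :
    (∃ s ∈ Icc (0 : ℝ) 1, concat3 e c e' t = e s) ∨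
    (∃ s ∈ Icc (0 : ℝ) 1, concat3 e c e' t = c s) ∨
    (∃ s ∈ Icc (0 : ℝ) 1, concat3 e c e' t = e' s) := by
  by_cases a : t ≤ 1 / 3
  · exact Or.inl ⟨3 * t, ⟨by linarith [ht.1], by linarith⟩, concat3_left _ _ _ a⟩
  by_cases b : t ≤ 2 / 3
  · exact Or.inr (Or.inl ⟨3 * t - 1, ⟨by linarith [not_le.1 a], by linarith⟩,
      concat3_mid _ _ _ h1 (not_le.1 a).le b⟩)
  · exact Or.inr (Or.inr ⟨3 - 3 * t, ⟨by linarith [ht.2], by linarith [not_le.1 b]⟩,
      concat3_right _ _ _ h2 (not_le.1 b).le⟩)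

lemma concat3_continuousOn {e c e' : ℝ → ℂ} (h1 : e 1 = c 0) (h2 : c 1 = e' 1)
    (he : ContinuousOn e (Icc 0 1)) (hc : ContinuousOn c (Icc 0 1))
    (he' : ContinuousOn e' (Icc 0 1)) : ContinuousOn (concat3 e c e') (Icc 0 1) := by
  have A : ContinuousOn (concat3 e c e') (Icc 0 (1 / 3)) :=
    (he.comp (f := fun t : ℝ => 3 * t) (by fun_prop)
      (fun t ht => ⟨by linarith [ht.1], by linarith [ht.2]⟩)).congr
      (fun t ht => concat3_left _ _ _ ht.2)
  have B : ContinuousOn (concat3 e c e') (Icc (1 / 3) (2 / 3)) :=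
    (hc.comp (f := fun t : ℝ => 3 * t - 1) (by fun_prop)
      (fun t ht => ⟨by linarith [ht.1], by linarith [ht.2]⟩)).congr
      (fun t ht => concat3_mid _ _ _ h1 ht.1 ht.2)
  have C : ContinuousOn (concat3 e c e') (Icc (2 / 3) 1) :=
    (he'.comp (f := fun t : ℝ => 3 - 3 * t) (by fun_prop)
      (fun t ht => ⟨by linarith [ht.2], by linarith [ht.1]⟩)).congr
      (fun t ht => concat3_right _ _ _ h2 ht.1)
  have := (A.union_of_isClosed B isClosed_Icc isClosed_Icc).union_of_isClosed C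
    (isClosed_Icc.union isClosed_Icc) isClosed_Icc
  rwa [Icc_union_Icc_eq_Icc (by norm_num) (by norm_num),
    Icc_union_Icc_eq_Icc (by norm_num) (by norm_num)] at this

/-- The winding of a path around a point, in radians. -/
noncomputable def wind (γ : ℝ → ℂ) (z : ℂ) : ℝ :=
  (nearLift γ z 1).im - (nearLift γ z 0).im

lemma nearLift_spec {γ : ℝ → ℂ} {z : ℂ} (hc : ContinuousOn γ (Icc 0 1))
    (hn : ∀ t ∈ Icc (0 : ℝ) 1, γ t ≠ z) :
    ContinuousOn (nearLift γ z) (Icc 0 1) ∧
      ∀ t ∈ Icc (0 : ℝ) 1, exp (nearLift γ z t) = γ t - z := by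
  rw [nearLift, dif_pos ⟨hc, hn⟩]
  have := Classical.choose_spec (exists_log_lift (convex_Icc (0 : ℝ) 1) (f := fun t => γ t - z)
      (hc.sub continuousOn_const) (fun t ht => sub_ne_zero.2 (hn t ht))
      (show (1 : ℝ) ∈ Icc (0 : ℝ) 1 from ⟨zero_le_one, le_rfl⟩))
  exact ⟨this.1, this.2.1⟩

lemma wind_eq {γ : ℝ → ℂ} {z : ℂ} (hc : ContinuousOn γ (Icc 0 1))
    (hn : ∀ t ∈ Icc (0 : ℝ) 1, γ t ≠ z) {L : ℝ → ℂ} (hL : ContinuousOn L (Icc 0 1))
    (he : ∀ t ∈ Icc (0 : ℝ) 1, exp (L t) = γ t - z) :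
    wind γ z = (L 1).im - (L 0).im := by
  obtain ⟨h1, h2⟩ := nearLift_spec hc hn
  have := log_lift_unique isPreconnected_Icc h1 hL
    (fun t ht => by rw [h2 t ht, he t ht]) (left_mem_Icc.2 zero_le_one) (right_mem_Icc.2 zero_le_one)
  unfold wind
  linarith

/-- The winding of a loop is the same around the two ends of a path avoiding it. -/
lemma wind_const {γ : ℝ → ℂ} (hc : ContinuousOn γ (Icc 0 1)) (hloop : γ 0 = γ 1)
    {f : ℝ → ℂ} (hf : ContinuousOn f (Icc 0 1))
    (hn : ∀ t ∈ Icc (0 : ℝ) 1, ∀ s ∈ Icc (0 : ℝ) 1, γ t ≠ f s) :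
    wind γ (f 0) = wind γ (f 1) := by
  have one : (1 : ℝ) ∈ Icc (0 : ℝ) 1 := right_mem_Icc.2 zero_le_one
  have zero : (0 : ℝ) ∈ Icc (0 : ℝ) 1 := left_mem_Icc.2 zero_le_one
  have hF : ContinuousOn (fun p : ℝ × ℝ => γ p.1 - f p.2) (Icc 0 1 ×ˢ Icc 0 1) :=
    (hc.comp continuous_fst.continuousOn (fun p hp => hp.1)).sub
      (hf.comp continuous_snd.continuousOn (fun p hp => hp.2))
  obtain ⟨L, hLc, hLe, -⟩ := exists_log_lift ((convex_Icc (0 : ℝ) 1).prod (convex_Icc 0 1))
    hF (fun p hp => sub_ne_zero.2 (hn p.1 hp.1 p.2 hp.2))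
    (show ((0 : ℝ), (0 : ℝ)) ∈ Icc (0 : ℝ) 1 ×ˢ Icc (0 : ℝ) 1 from ⟨zero, zero⟩)
  have hs : ∀ s ∈ Icc (0 : ℝ) 1, wind γ (f s) = (L (1, s)).im - (L (0, s)).im := fun s hs =>
    wind_eq hc (fun t ht => hn t ht s hs) (L := fun t => L (t, s))
      (hLc.comp (by fun_prop) (fun t ht => ⟨ht, hs⟩)) (fun t ht => hLe (t, s) ⟨ht, hs⟩)
  rw [hs 0 zero, hs 1 one]
  exact log_lift_unique isPreconnected_Icc (L := fun s => L (1, s)) (M := fun s => L (0, s))
    (hLc.comp (by fun_prop) (fun s hs => ⟨one, hs⟩))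
    (hLc.comp (by fun_prop) (fun s hs => ⟨zero, hs⟩))
    (fun s hs => by rw [hLe _ ⟨one, hs⟩, hLe _ ⟨zero, hs⟩]; simp [hloop]) zero one

/-- The inverse of the slit map. -/
noncomputable def unslit (ζ : ℂ) : ℂ := -(1 - ζ) ^ 2 / (4 * ζ)

/-- The closed disc without the images of the two ends of the segment. -/
def diskK : Set ℂ := {ζ | ‖ζ‖ ≤ 1 ∧ ζ ≠ 1 ∧ ζ ≠ -1}

lemma convex_diskK : Convex ℝ diskK := by
  intro u hu v hv a b ha hb hab
  refine ⟨?_, ?_, ?_⟩
  · have := (convex_closedBall (0 : ℂ) 1) (mem_closedBall_zero_iff.2 hu.1)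
      (mem_closedBall_zero_iff.2 hv.1) ha hb hab
    exact mem_closedBall_zero_iff.1 this
  all_goals
    intro he
    have hre := congrArg Complex.re he
    simp at hre
    have ur := abs_le.1 ((Complex.abs_re_le_norm u).trans hu.1)
    have vr := abs_le.1 ((Complex.abs_re_le_norm v).trans hv.1)
    have uq := Complex.sq_norm u
    have vq := Complex.sq_norm v
    rw [Complex.normSq_apply] at uq vq
    have u1 : ‖u‖ ^ 2 ≤ 1 := by nlinarith [norm_nonneg u, hu.1]
    have v1 : ‖v‖ ^ 2 ≤ 1 := by nlinarith [norm_nonneg v, hv.1]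
    rcases ha.eq_or_lt with a0 | a0
    · obtain rfl : b = 1 := by linarith
      subst a0
      simp at he
      first | exact hv.2.1 he | exact hv.2.2 he
  · have hu1 : u.re = 1 := by nlinarith
    have hu2 : u.im = 0 := by nlinarith
    exact hu.2.1 (Complex.ext (by simpa using hu1) (by simpa using hu2))
  · have hu1 : u.re = -1 := by nlinarith
    have hu2 : u.im = 0 := by nlinarith
    exact hu.2.2 (Complex.ext (by simpa using hu1) (by simpa using hu2))

lemma unslit_ne {ζ : ℂ} (hζ : ζ ∈ diskK) (h0 : ζ ≠ 0) : unslit ζ ≠ 0 ∧ unslit ζ ≠ 1 := by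
  constructor
  · simp only [unslit, ne_eq, div_eq_zero_iff, neg_eq_zero, pow_eq_zero_iff two_ne_zero,
      sub_eq_zero, mul_eq_zero, not_or]
    exact ⟨fun e => hζ.2.1 e.symm, by norm_num, h0⟩
  · intro e
    rw [unslit, div_eq_one_iff_eq (by simp [h0])] at e
    have : (ζ + 1) ^ 2 = 0 := by linear_combination -e
    exact hζ.2.2 (eq_neg_of_add_eq_zero_left ((pow_eq_zero_iff two_ne_zero).1 this))

lemma slit_ne_zero {z : ℂ} (hz : z ∉ unitSeg) : slit z ≠ 0 := by
  have h0 : z ≠ 0 := fun h => hz (by simp [h, unitSeg])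
  have hp := csq_re_pos (ratio_mem_slitPlane hz)
  rw [slit, if_neg h0]
  refine div_ne_zero (fun e => ?_) (fun e => ?_)
  · have h1 : ratio z = 1 := by rw [← csq_sq (ratio z), sub_eq_zero.1 e]; ring
    rw [ratio, div_eq_one_iff_eq h0] at h1
    simp at h1
  · have h' := congrArg Complex.re e
    simp at h'
    linarith

lemma unslit_slit {z : ℂ} (hz : z ∉ unitSeg) : unslit (slit z) = z := by
  have h0 : z ≠ 0 := fun h => hz (by simp [h, unitSeg])
  have hp := csq_re_pos (ratio_mem_slitPlane hz)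
  have hne := slit_ne_zero hz
  have hs1 : csq (ratio z) + 1 ≠ 0 := fun e => by
    have h' := congrArg Complex.re e
    simp at h'
    linarith
  have hq : csq (ratio z) * csq (ratio z) * z = z - 1 := by
    rw [csq_sq, ratio, div_mul_cancel₀ _ h0]
  rw [slit, if_neg h0] at hne ⊢
  have hs2 : csq (ratio z) - 1 ≠ 0 := fun e => hne (by rw [e, zero_div])
  rw [unslit, div_eq_iff (by simp [hne])]
  field_simp
  linear_combination (-4 : ℂ) * hq

lemma unslit_circ_pos {x : ℝ} (s : Bool) (hx : 0 < x) (hx1 : x < 1) :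
    unslit (circ (pos x s)) = (x : ℂ) := by
  set θ := pos x s with hθ
  have hcos : Real.cos θ = 1 - 2 * x := by
    set τ := Real.sqrt ((1 - x) / x) with hτ
    have hτ2 : τ ^ 2 = (1 - x) / x := Real.sq_sqrt (div_nonneg (by linarith) hx.le)
    have key : Real.cos (2 * Real.arctan τ) = 2 * x - 1 := by
      rw [Real.cos_two_mul, Real.cos_sq_arctan, hτ2]
      field_simp
      ring
    rw [hθ, pos, if_neg hx.ne']
    split_ifs
    · rw [Real.cos_add, Real.cos_pi, Real.sin_pi, key]; ring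
    · rw [Real.cos_pi_sub, key]; ring
  have hne : circ θ ≠ 0 := fun e => by
    have := norm_circ θ
    rw [e, norm_zero] at this
    exact zero_ne_one this
  have hsc := Real.sin_sq_add_cos_sq θ
  rw [unslit, div_eq_iff (by simp [hne])]
  apply Complex.ext
  · simp [circ, pow_two]
    rw [hcos] at hsc ⊢
    nlinarith
  · simp [circ, pow_two]
    rw [hcos]
    ring

lemma circ_pos_mem_diskK {x : ℝ} (s : Bool) (hx : 0 < x) (hx1 : x < 1) :
    circ (pos x s) ∈ diskK ∧ circ (pos x s) ≠ 0 := by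
  have h := unslit_circ_pos s hx hx1
  refine ⟨⟨(norm_circ _).le, fun e => ?_, fun e => ?_⟩, fun e => ?_⟩
  · rw [e] at h
    have h' := congrArg Complex.re h
    simp [unslit] at h'
    linarith
  · rw [e] at h
    have h' := congrArg Complex.re h
    norm_num [unslit] at h'
    linarith
  · have := norm_circ (pos x s)
    rw [e, norm_zero] at this
    exact zero_ne_one this

/-- A lift of the ratio of the distances to the two ends, in the disc chart of an arc. -/
lemma exists_ratio_lift (h : ℂ ≃ₜ ℂ) {x y : ℂ} (hx : h x = 0) (hy : h y = 1) :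
    ∃ Λ : ℂ → ℂ, ContinuousOn Λ diskK ∧
      ∀ ζ ∈ diskK, ζ ≠ 0 → exp (Λ ζ) = (h.symm (unslit ζ) - x) / (h.symm (unslit ζ) - y) := by
  set F : ℂ → ℂ := fun ζ =>
    if ζ = 0 then 1 else (h.symm (unslit ζ) - x) / (h.symm (unslit ζ) - y) with hF
  have hne : ∀ ζ ∈ diskK, ζ ≠ 0 → h.symm (unslit ζ) - x ≠ 0 ∧ h.symm (unslit ζ) - y ≠ 0 := by
    intro ζ hζ h0
    obtain ⟨a, b⟩ := unslit_ne hζ h0
    constructor <;> rw [sub_ne_zero] <;> intro e
    · exact a (by rw [← hx, ← e, Homeomorph.apply_symm_apply])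
    · exact b (by rw [← hy, ← e, Homeomorph.apply_symm_apply])
  have hFne : ∀ ζ ∈ diskK, F ζ ≠ 0 := by
    intro ζ hζ
    by_cases h0 : ζ = 0
    · simp [hF, h0]
    · simp only [hF, if_neg h0]
      exact div_ne_zero (hne ζ hζ h0).1 (hne ζ hζ h0).2
  have hFc : ContinuousOn F diskK := by
    intro ζ hζ
    by_cases h0 : ζ = 0
    · subst h0
      have g0 : Tendsto (fun v : ℂ => -(4 * v) / (1 - v) ^ 2) (𝓝[≠] 0) (𝓝[≠] 0) := by
        refine tendsto_nhdsWithin_iff.2 ⟨?_, ?_⟩
        · have : ContinuousAt (fun v : ℂ => -(4 * v) / (1 - v) ^ 2) 0 := by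
            apply ContinuousAt.div (by fun_prop) (by fun_prop)
            norm_num
          simpa using this.tendsto.mono_left nhdsWithin_le_nhds
        · filter_upwards [self_mem_nhdsWithin,
            nhdsWithin_le_nhds (isOpen_ne.mem_nhds (show (0 : ℂ) ≠ 1 from zero_ne_one))] with v hv hv1
          simp only [mem_compl_iff, mem_singleton_iff] at hv ⊢
          exact div_ne_zero (by simp [hv]) (pow_ne_zero _ (sub_ne_zero.2 (Ne.symm hv1)))
      have g1 : Tendsto unslit (𝓝[≠] 0) (Bornology.cobounded ℂ) := by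
        refine (tendsto_inv₀_nhdsNE_zero.comp g0).congr' ?_
        filter_upwards with v
        simp only [Function.comp_apply, unslit, inv_div]
        rw [div_neg, neg_div]
      have g2 : Tendsto h.symm (Bornology.cobounded ℂ) (Bornology.cobounded ℂ) := by
        rw [Metric.cobounded_eq_cocompact]
        exact h.symm.isClosedEmbedding.tendsto_cocompact
      have g3 : Tendsto (fun z : ℂ => (z - x) / (z - y)) (Bornology.cobounded ℂ) (𝓝 1) := by
        have hi : Tendsto (fun z : ℂ => z⁻¹) (Bornology.cobounded ℂ) (𝓝 0) :=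
          tendsto_inv₀_cobounded
        have : Tendsto (fun z : ℂ => (1 - x * z⁻¹) / (1 - y * z⁻¹)) (Bornology.cobounded ℂ)
            (𝓝 ((1 - x * 0) / (1 - y * 0))) :=
          (tendsto_const_nhds.sub (hi.const_mul x)).div (tendsto_const_nhds.sub (hi.const_mul y))
            (by simp)
        simp only [mul_zero, sub_zero, div_one] at this
        refine this.congr' ?_
        filter_upwards [Bornology.eventually_ne_cobounded (0 : ℂ)] with z hz
        field_simp
      have g4 : Tendsto F (𝓝[≠] 0) (𝓝 1) := by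
        refine ((g3.comp g2).comp g1).congr' ?_
        filter_upwards [self_mem_nhdsWithin] with v hv
        simp [hF, show v ≠ 0 from hv]
      have hF0 : F 0 = 1 := by simp [hF]
      have : ContinuousAt F 0 := by
        rw [continuousAt_iff_punctured_nhds, hF0]
        exact g4
      exact this.continuousWithinAt
    · obtain ⟨-, b⟩ := hne ζ hζ h0
      have hu : ContinuousAt unslit ζ := by
        unfold unslit
        exact ContinuousAt.div (by fun_prop) (by fun_prop) (by simp [h0])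
      have hc : ContinuousAt (fun v => h.symm (unslit v)) ζ := h.symm.continuous.continuousAt.comp hu
      have : ContinuousAt F ζ := by
        apply ((hc.sub (continuousAt_const (y := x))).div (hc.sub (continuousAt_const (y := y))) b).congr
        filter_upwards [isOpen_ne.mem_nhds h0] with v hv
        simp [hF, show v ≠ 0 from hv]
      exact this.continuousWithinAt
  obtain ⟨Λ, hc, he, -⟩ := exists_log_lift convex_diskK hFc hFne
    (show (0 : ℂ) ∈ diskK from ⟨by simp, zero_ne_one, by norm_num⟩)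
  exact ⟨Λ, hc, fun ζ hζ h0 => by rw [he ζ hζ]; simp [hF, h0]⟩

/-- The winding difference of a loop touching a chart segment in one point. -/
lemma loop_wind {h : ℂ ≃ₜ ℂ} {x y : ℂ} (hx : h x = 0) (hy : h y = 1) {Λ : ℂ → ℂ}
    (hΛc : ContinuousOn Λ diskK)
    (hΛ : ∀ ζ ∈ diskK, ζ ≠ 0 → exp (Λ ζ) = (h.symm (unslit ζ) - x) / (h.symm (unslit ζ) - y))
    {e c e' : ℝ → ℂ} (he : SlitArc e) (he' : SlitArc e') (hc : ContinuousOn c (Icc 0 1))
    (hcoff : ∀ t ∈ Icc (0 : ℝ) 1, c t ∉ unitSeg) (h1 : e 1 = c 0) (h2 : c 1 = e' 1)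
    {r : ℝ} (hr : 0 < r) (hr1 : r < 1) (hs : e 0 = r) (hs' : e' 0 = r) :
    wind (fun t => h.symm (concat3 e c e' t)) x - wind (fun t => h.symm (concat3 e c e' t)) y
      = (Λ (circ (pos r (side e')))).im - (Λ (circ (pos r (side e)))).im := by
  set Γ := fun t => h.symm (concat3 e c e' t) with hΓdef
  set G := concat3 (discImage e) (fun t => slit (c t)) (discImage e') with hG
  have hd := discImage_arc he
  have hd' := discImage_arc he'
  have g1 : discImage e 1 = slit (c 0) := by simp [discImage, h1]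
  have g2 : slit (c 1) = discImage e' 1 := by simp [discImage, h2]
  have hsc : ContinuousOn (fun t => slit (c t)) (Icc 0 1) := fun t ht =>
    (slit_continuousAt (hcoff t ht)).comp_continuousWithinAt (hc t ht)
  have hGc : ContinuousOn G (Icc 0 1) := concat3_continuousOn g1 g2 hd.cont hsc hd'.cont
  have arcK : ∀ f : ℝ → ℂ, SlitArc f → f 0 = r → ∀ s ∈ Icc (0 : ℝ) 1,
      discImage f s ∈ diskK ∧ discImage f s ≠ 0 ∧ unslit (discImage f s) = f s := by
    intro f hf hf0 s hs
    rcases hs.1.eq_or_lt with e0 | e0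
    · subst e0
      have : discImage f 0 = circ (pos r (side f)) := by simp [discImage, hf0]
      rw [this]
      exact ⟨(circ_pos_mem_diskK _ hr hr1).1, (circ_pos_mem_diskK _ hr hr1).2,
        by rw [unslit_circ_pos _ hr hr1, hf0]⟩
    · have hoff := hf.off s ⟨e0, hs.2⟩
      have hl := slit_norm_lt hoff
      rw [discImage, if_neg (not_le.2 e0)]
      exact ⟨⟨hl.le, fun e => by rw [e] at hl; simp at hl, fun e => by rw [e] at hl; simp at hl⟩,
        slit_ne_zero hoff, unslit_slit hoff⟩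
  have hK : ∀ t ∈ Icc (0 : ℝ) 1, G t ∈ diskK ∧ G t ≠ 0 ∧ unslit (G t) = concat3 e c e' t := by
    intro t ht
    by_cases a : t ≤ 1 / 3
    · rw [hG, concat3_left _ _ _ a, concat3_left _ _ _ a]
      exact arcK e he hs _ ⟨by linarith [ht.1], by linarith⟩
    by_cases b : t ≤ 2 / 3
    · rw [hG, concat3_mid _ _ _ g1 (not_le.1 a).le b, concat3_mid _ _ _ h1 (not_le.1 a).le b]
      have hoff := hcoff (3 * t - 1) ⟨by linarith [not_le.1 a], by linarith⟩
      have hl := slit_norm_lt hoff
      exact ⟨⟨hl.le, fun e => by rw [e] at hl; simp at hl, fun e => by rw [e] at hl; simp at hl⟩,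
        slit_ne_zero hoff, unslit_slit hoff⟩
    · rw [hG, concat3_right _ _ _ g2 (not_le.1 b).le, concat3_right _ _ _ h2 (not_le.1 b).le]
      exact arcK e' he' hs' _ ⟨by linarith [ht.2], by linarith [not_le.1 b]⟩
  have hΓc : ContinuousOn Γ (Icc 0 1) :=
    h.symm.continuous.comp_continuousOn (concat3_continuousOn h1 h2 he.cont hc he'.cont)
  have hne : ∀ t ∈ Icc (0 : ℝ) 1, Γ t ≠ x ∧ Γ t ≠ y := by
    intro t ht
    obtain ⟨a, b, c'⟩ := hK t ht
    obtain ⟨n0, n1⟩ := unslit_ne a b
    rw [c'] at n0 n1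
    constructor <;> intro e <;> simp only [hΓdef] at e
    · exact n0 (by rw [← hx, ← e, Homeomorph.apply_symm_apply])
    · exact n1 (by rw [← hy, ← e, Homeomorph.apply_symm_apply])
  obtain ⟨Xc, Xe⟩ := nearLift_spec hΓc (fun t ht => (hne t ht).1)
  obtain ⟨Yc, Ye⟩ := nearLift_spec hΓc (fun t ht => (hne t ht).2)
  have key := log_lift_unique isPreconnected_Icc (L := fun t => nearLift Γ x t - nearLift Γ y t)
    (M := fun t => Λ (G t)) (Xc.sub Yc) (hΛc.comp hGc (fun t ht => (hK t ht).1))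
    (fun t ht => by
      rw [exp_sub, Xe t ht, Ye t ht, hΛ _ (hK t ht).1 (hK t ht).2.1, (hK t ht).2.2])
    (left_mem_Icc.2 zero_le_one) (right_mem_Icc.2 zero_le_one)
  have G0 : G 0 = circ (pos r (side e)) := by
    rw [hG, concat3_zero]; simp [discImage, hs]
  have G1 : G 1 = circ (pos r (side e')) := by
    rw [hG, concat3_one]; simp [discImage, hs']
  rw [G0, G1] at key
  simp only [Complex.sub_im] at key
  unfold wind
  linarith

/-- A round circle around `0`, pulled back, winds differently around the two ends. -/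
lemma circle_wind_ne (h : ℂ ≃ₜ ℂ) {x y : ℂ} (hx : h x = 0) (hy : h y = 1) {ρ : ℝ}
    (hρ : 0 < ρ) (hρ1 : ρ < 1) {φ : ℝ → ℝ} (hφc : ContinuousOn φ (Icc 0 1))
    (hφ0 : φ 0 = 0) (hφ1 : φ 1 = 1) :
    wind (fun t => h.symm ((ρ : ℂ) * circ (2 * Real.pi * φ t))) x ≠
      wind (fun t => h.symm ((ρ : ℂ) * circ (2 * Real.pi * φ t))) y := by
  have hcirc : Continuous circ := by
    have : circ = fun θ : ℝ => ((Real.cos θ : ℝ) : ℂ) + ((Real.sin θ : ℝ) : ℂ) * I := by
      funext θ; exact (Complex.re_add_im (circ θ)).symm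
    rw [this]; fun_prop
  set P : Set (ℝ × ℝ) := Ioo 0 1 ×ˢ univ with hP
  have hPc : Convex ℝ P := (convex_Ioo 0 1).prod convex_univ
  set K : ℝ × ℝ → ℂ := fun p => (p.1 : ℂ) * circ (2 * Real.pi * p.2) with hKdef
  have hKc : Continuous K := by
    apply Continuous.mul (by fun_prop)
    exact hcirc.comp (by fun_prop)
  have hKn : ∀ p ∈ P, ‖K p‖ = p.1 := fun p hp => by
    simp [hKdef, norm_circ, abs_of_pos hp.1.1]
  have hxne : ∀ p ∈ P, h.symm (K p) - x ≠ 0 := by
    intro p hp e
    have : K p = 0 := by rw [← hx, ← sub_eq_zero.1 e, Homeomorph.apply_symm_apply]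
    have hn := hKn p hp
    rw [this, norm_zero] at hn
    exact hp.1.1.ne hn
  have p0 : (ρ, (0 : ℝ)) ∈ P := ⟨⟨hρ, hρ1⟩, trivial⟩
  obtain ⟨Lx, Lc, Le, -⟩ := exists_log_lift hPc
    (f := fun p => h.symm (K p) - x)
    ((h.symm.continuous.comp hKc).sub continuous_const).continuousOn hxne p0
  have hball : ∀ w ∈ Metric.ball (0 : ℂ) 1, h.symm w - y ≠ 0 := by
    intro w hw e
    have : w = 1 := by rw [← hy, ← sub_eq_zero.1 e, Homeomorph.apply_symm_apply]
    rw [this] at hw
    simp at hw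
  obtain ⟨Ly, Lyc, Lye, -⟩ := exists_log_lift (convex_ball (0 : ℂ) 1)
    (f := fun w => h.symm w - y) (h.symm.continuous.sub continuous_const).continuousOn hball
    (Metric.mem_ball_self one_pos)
  have hper : ∀ θ : ℝ, circ (2 * Real.pi * (θ + 1)) = circ (2 * Real.pi * θ) := by
    intro θ
    rw [mul_add, mul_one]
    apply Complex.ext <;> simp [circ]
  set N := (Lx (ρ, 1)).im - (Lx (ρ, 0)).im with hN
  have shift : ∀ r ∈ Ioo (0 : ℝ) 1, ∀ θ : ℝ, (Lx (r, θ + 1)).im = (Lx (r, θ)).im + N := by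
    intro r hr θ
    have := log_lift_unique hPc.isPreconnected (L := fun p => Lx (p.1, p.2 + 1)) (M := Lx)
      (Lc.comp (by fun_prop) (fun p hp => ⟨hp.1, trivial⟩)) Lc
      (fun p hp => by
        rw [Le _ (show (p.1, p.2 + 1) ∈ P from ⟨hp.1, trivial⟩), Le p hp]
        simp [hKdef, hper]) p0 (show (r, θ) ∈ P from ⟨hr, trivial⟩)
    simp only [zero_add] at this
    linarith
  have intShift : ∀ r ∈ Ioo (0 : ℝ) 1, ∀ (θ : ℝ) (k : ℤ),
      (Lx (r, θ + k)).im = (Lx (r, θ)).im + k * N := by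
    intro r hr θ k
    have hp : Function.Periodic (fun u => (Lx (r, u)).im - u * N) 1 := fun u => by
      simp only [shift r hr u]; ring
    have := hp.int_mul k θ
    simp only [mul_one] at this
    linarith
  -- a small round circle around `x`
  have hopen : IsOpen (h ⁻¹' Metric.ball (0 : ℂ) 1) := Metric.isOpen_ball.preimage h.continuous
  obtain ⟨ε, hε, hεsub⟩ := Metric.isOpen_iff.1 hopen x (by simp [hx])
  set C : ℝ → ℂ := fun t => x + ((ε / 2 : ℝ) : ℂ) * circ (2 * Real.pi * t) with hC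
  have hCc : Continuous C := continuous_const.add (continuous_const.mul (hcirc.comp (by fun_prop)))
  have hCball : ∀ t, h (C t) ∈ Metric.ball (0 : ℂ) 1 := fun t => hεsub (by
    simp [hC, Metric.mem_ball, dist_eq, norm_circ, abs_of_pos hε]; linarith)
  have hCne : ∀ t, h (C t) ≠ 0 := by
    intro t e
    have : C t = x := h.injective (by rw [e, hx])
    simp only [hC, add_eq_left, mul_eq_zero, Complex.ofReal_eq_zero] at this
    rcases this with e' | e'
    · linarith
    · have := norm_circ (2 * Real.pi * t)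
      rw [e', norm_zero] at this
      exact zero_ne_one this
  obtain ⟨U, Uc, Ue, -⟩ := exists_log_lift (convex_Icc (0 : ℝ) 1) (f := fun t => h (C t))
    (h.continuous.comp hCc).continuousOn (fun t _ => hCne t)
    (show (0 : ℝ) ∈ Icc (0 : ℝ) 1 from left_mem_Icc.2 zero_le_one)
  set R : ℝ → ℝ := fun t => Real.exp (U t).re with hR
  set Θ : ℝ → ℝ := fun t => (U t).im / (2 * Real.pi) with hΘ
  have hpol : ∀ t ∈ Icc (0 : ℝ) 1, K (R t, Θ t) = h (C t) ∧ (R t, Θ t) ∈ P := by
    intro t ht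
    have e : K (R t, Θ t) = exp (U t) := by
      have : 2 * Real.pi * ((U t).im / (2 * Real.pi)) = (U t).im := by
        field_simp
      simp only [hKdef, hR, hΘ, this]
      apply Complex.ext <;> simp [circ, Complex.exp_re, Complex.exp_im]
    refine ⟨by rw [e, Ue t ht], ⟨⟨Real.exp_pos _, ?_⟩, trivial⟩⟩
    have hb := hCball t
    rw [← Ue t ht, mem_ball_zero_iff, Complex.norm_exp] at hb
    exact hb
  have one : (1 : ℝ) ∈ Icc (0 : ℝ) 1 := right_mem_Icc.2 zero_le_one
  have zero : (0 : ℝ) ∈ Icc (0 : ℝ) 1 := left_mem_Icc.2 zero_le_one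
  have hC01 : C 1 = C 0 := by
    have := hper 0
    simp only [zero_add, mul_one, mul_zero] at this
    simp [hC, this]
  obtain ⟨k, hk⟩ := exp_eq_exp_iff_exists_int.1
    (show exp (U 1) = exp (U 0) by rw [Ue 1 one, Ue 0 zero, hC01])
  have hR01 : R 1 = R 0 := by simp [hR, hk]
  have hΘ01 : Θ 1 = Θ 0 + k := by
    simp only [hΘ, hk]
    simp
    field_simp
  have kN : 2 * Real.pi = k * N := by
    have hm : ContinuousOn (fun t => (R t, Θ t)) (Icc 0 1) := by
      apply ContinuousOn.prodMk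
      · exact Real.continuous_exp.comp_continuousOn (continuous_re.comp_continuousOn Uc)
      · exact (continuous_im.comp_continuousOn Uc).div_const _
    have := log_lift_unique isPreconnected_Icc (L := fun t => Lx (R t, Θ t))
      (M := fun t : ℝ => ((Real.log (ε / 2) : ℝ) : ℂ) + ((2 * Real.pi * t : ℝ) : ℂ) * I)
      (Lc.comp hm (fun t ht => (hpol t ht).2)) (by fun_prop)
      (fun t ht => by
        rw [Le _ (hpol t ht).2, (hpol t ht).1, Homeomorph.symm_apply_apply]
        have hl : exp (((Real.log (ε / 2) : ℝ) : ℂ)) = ((ε / 2 : ℝ) : ℂ) := by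
          rw [← Complex.ofReal_exp, Real.exp_log (half_pos hε)]
        rw [exp_add, hl]
        simp only [hC, add_sub_cancel_left]
        congr 1
        apply Complex.ext <;> simp [circ, Complex.exp_re, Complex.exp_im]) zero one
    rw [hR01, hΘ01, intShift (R 0) (hpol 0 zero).2.1 (Θ 0) k] at this
    simp at this
    linarith
  have hN0 : N ≠ 0 := fun e => by
    rw [e, mul_zero] at kN
    linarith [Real.pi_pos]
  -- the winding numbers of the loop itself
  have hmem : ∀ t : ℝ, (ρ : ℂ) * circ (2 * Real.pi * φ t) ∈ Metric.ball (0 : ℂ) 1 := fun t => by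
    simp [norm_circ, abs_of_pos hρ, hρ1]
  have hγc : ContinuousOn (fun t => h.symm ((ρ : ℂ) * circ (2 * Real.pi * φ t))) (Icc 0 1) :=
    h.symm.continuous.comp_continuousOn
      (continuousOn_const.mul (hcirc.comp_continuousOn (continuousOn_const.mul hφc)))
  rw [wind_eq hγc (fun t _ => sub_ne_zero.1 (hxne (ρ, φ t) ⟨⟨hρ, hρ1⟩, trivial⟩))
      (L := fun t => Lx (ρ, φ t))
      (Lc.comp (continuousOn_const.prodMk hφc) (fun t _ => ⟨⟨hρ, hρ1⟩, trivial⟩))
      (fun t _ => Le (ρ, φ t) ⟨⟨hρ, hρ1⟩, trivial⟩),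
    wind_eq hγc (fun t _ => sub_ne_zero.1 (hball _ (hmem t)))
      (L := fun t => Ly ((ρ : ℂ) * circ (2 * Real.pi * φ t)))
      (Lyc.comp (continuousOn_const.mul (hcirc.comp_continuousOn (continuousOn_const.mul hφc)))
        (fun t _ => hmem t))
      (fun t _ => Lye _ (hmem t))]
  simp only [hφ0, hφ1]
  have : circ (2 * Real.pi * 1) = circ (2 * Real.pi * 0) := by
    have := hper 0
    simpa using this
  rw [this, sub_self]
  exact hN0

/-- In a chart, the winding difference detects whether two arcs leave on different sides. -/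
theorem side_iff_wind {h : ℂ ≃ₜ ℂ} {x y : ℂ} (hx : h x = 0) (hy : h y = 1)
    {e c e' : ℝ → ℂ} (he : SlitArc e) (he' : SlitArc e') (hc : ContinuousOn c (Icc 0 1))
    (hcoff : ∀ t ∈ Icc (0 : ℝ) 1, c t ∉ unitSeg) (h1 : e 1 = c 0) (h2 : c 1 = e' 1)
    {r : ℝ} (hr : 0 < r) (hr1 : r < 1) (hs : e 0 = r) (hs' : e' 0 = r) :
    side e = side e' ↔
      wind (fun t => h.symm (concat3 e c e' t)) x = wind (fun t => h.symm (concat3 e c e' t)) y := by
  obtain ⟨Λ, hΛc, hΛ⟩ := exists_ratio_lift h hx hy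
  have key := loop_wind hx hy hΛc hΛ he he' hc hcoff h1 h2 hr hr1 hs hs'
  set up : ℝ → ℂ := fun t => (r : ℂ) * circ (2 * Real.pi * (t / 2)) with hup
  set down : ℝ → ℂ := fun t => (r : ℂ) * circ (2 * Real.pi * (1 - t / 2)) with hdown
  set mid : ℝ → ℂ := fun _ => (r : ℂ) * circ (2 * Real.pi * (1 / 2)) with hmid
  have hcirc : Continuous circ := by
    have : circ = fun θ : ℝ => ((Real.cos θ : ℝ) : ℂ) + ((Real.sin θ : ℝ) : ℂ) * I := by
      funext θ; exact (Complex.re_add_im (circ θ)).symm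
    rw [this]; fun_prop
  have hneg : (r : ℂ) * circ (2 * Real.pi * (1 / 2)) ∉ unitSeg := by
    rw [show 2 * Real.pi * (1 / 2) = Real.pi by ring]
    intro hS
    have h' := hS.2.1
    simp [circ] at h'
    linarith
  have hup0 : up 0 = r := by apply Complex.ext <;> simp [hup, circ]
  have hdown0 : down 0 = r := by apply Complex.ext <;> simp [hdown, circ]
  have upim : ∀ t ∈ Ioo (0 : ℝ) 1, 0 < (up t).im := fun t ht => by
    have : 0 < Real.sin (2 * Real.pi * (t / 2)) := Real.sin_pos_of_pos_of_lt_pi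
      (by nlinarith [Real.pi_pos, ht.1]) (by nlinarith [Real.pi_pos, ht.2])
    simp [hup, circ]
    exact mul_pos hr this
  have downim : ∀ t ∈ Ioo (0 : ℝ) 1, (down t).im < 0 := fun t ht => by
    have : Real.sin (2 * Real.pi * (1 - t / 2)) < 0 := by
      rw [show 2 * Real.pi * (1 - t / 2) = -(2 * Real.pi * (t / 2)) + 2 * Real.pi by ring,
        Real.sin_add_two_pi, Real.sin_neg, neg_lt_zero]
      exact Real.sin_pos_of_pos_of_lt_pi
        (by nlinarith [Real.pi_pos, ht.1]) (by nlinarith [Real.pi_pos, ht.2])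
    simp [hdown, circ]
    exact mul_neg_of_pos_of_neg hr this
  have upArc : SlitArc up := by
    refine ⟨(continuous_const.mul (hcirc.comp (by fun_prop))).continuousOn,
      by rw [hup0]; simp [unitSeg, hr.le, hr1.le], ?_⟩
    intro t ht hS
    rcases ht.2.eq_or_lt with e1 | e1
    · subst e1; exact hneg (by simpa [hup] using hS)
    · exact (upim t ⟨ht.1, e1⟩).ne' hS.1
  have downArc : SlitArc down := by
    refine ⟨(continuous_const.mul (hcirc.comp (by fun_prop))).continuousOn,
      by rw [hdown0]; simp [unitSeg, hr.le, hr1.le], ?_⟩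
    intro t ht hS
    rcases ht.2.eq_or_lt with e1 | e1
    · subst e1
      exact hneg (by
        have : down 1 = (r : ℂ) * circ (2 * Real.pi * (1 / 2)) := by simp only [hdown]; norm_num
        rwa [this] at hS)
    · exact (downim t ⟨ht.1, e1⟩).ne hS.1
  have sup : side up = false := by
    simp only [side, decide_eq_false_iff_not, not_and]
    intro _ _ hev
    obtain ⟨t, a, b⟩ := (hev.and (eventually_of_mem (Ioo_mem_nhdsGT zero_lt_one) upim)).exists
    linarith
  have sdown : side down = true := by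
    simp only [side, decide_eq_true_eq, hdown0]
    exact ⟨by simpa using hr, by simpa using hr1,
      eventually_of_mem (Ioo_mem_nhdsGT zero_lt_one) downim⟩
  have hud := loop_wind hx hy hΛc hΛ upArc downArc (c := mid) (by fun_prop)
    (fun _ _ => hneg) (by simp [hup, hmid]) (by simp only [hdown, hmid]; norm_num) hr hr1 hup0 hdown0
  rw [sup, sdown] at hud
  set φ : ℝ → ℝ := fun t => if t ≤ 1 / 3 then 3 * t / 2 else
    if t ≤ 2 / 3 then 1 / 2 else (3 * t - 1) / 2 with hφ
  have hφc : Continuous φ := by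
    apply Continuous.if_le (by fun_prop) ?_ continuous_id continuous_const
    · intro t (ht : t = 1 / 3)
      subst ht
      norm_num
    apply Continuous.if_le (by fun_prop) (by fun_prop) continuous_id continuous_const
    intro t (ht : t = 2 / 3)
    subst ht
    norm_num
  have hne := circle_wind_ne h hx hy hr hr1 hφc.continuousOn
    (by simp [hφ]) (by norm_num [hφ])
  have heq : (fun t => h.symm (concat3 up mid down t)) =
      fun t => h.symm ((r : ℂ) * circ (2 * Real.pi * φ t)) := by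
    funext t
    simp only [concat3, hφ, hup, hmid, hdown]
    split_ifs
    · ring_nf
    · rfl
    · ring_nf
  rw [heq] at hud
  have D : (Λ (circ (pos r true))).im - (Λ (circ (pos r false))).im ≠ 0 := by
    rw [← hud]
    exact sub_ne_zero.2 hne
  constructor
  · intro hse
    rw [hse, sub_self] at key
    exact sub_eq_zero.1 key
  · intro hw
    rw [hw, sub_self] at key
    cases hA : side e <;> cases hB : side e' <;> rw [hA, hB] at key <;>
      first
        | rfl
        | exact absurd (by linarith) D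

end Vale.Agent.P040
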