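import Mathlib

/-!
Counting part: a weighted Mantel inequality for graphs on a linearly ordered vertex set in which
some vertices may not be the middle vertex of a triangle.
-/

namespace Vale.Agent.P040

open Finset

variable {α : Type*} [LinearOrder α]

open Classical in
/-- The number of elements of `V` below `i`. -/
noncomputable def below (V : Finset α) (i : α) : ℕ := (V.filter (fun x => x < i)).card

open Classical in
/-- The number of elements of `V` above `i`. -/
noncomputable def above (V : Finset α) (i : α) : ℕ := (V.filter (fun x => i < x)).card

lemma below_erase (V : Finset α) {a : α} (ha : a ∈ V) (i : α) :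
    below (V.erase a) i + (if a < i then 1 else 0) = below V i := by
  classical
  unfold below
  rw [Finset.filter_erase]
  by_cases h : a < i
  · have hm : a ∈ V.filter (fun x => x < i) := by simp [ha, h]
    rw [if_pos h, Finset.card_erase_add_one hm]
  · rw [if_neg h, Finset.erase_eq_of_notMem (by simp [h]), add_zero]

lemma above_erase (V : Finset α) {a : α} (ha : a ∈ V) (i : α) :
    above (V.erase a) i + (if i < a then 1 else 0) = above V i := by
  classical
  unfold above
  rw [Finset.filter_erase]
  by_cases h : i < a
  · have hm : a ∈ V.filter (fun x => i < x) := by simp [ha, h]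
    rw [if_pos h, Finset.card_erase_add_one hm]
  · rw [if_neg h, Finset.erase_eq_of_notMem (by simp [h]), add_zero]

open Classical in
/-- Ordered non-adjacent pairs inside `V`. -/
noncomputable def nonAdj (adj : α → α → Prop) (V : Finset α) : Finset (α × α) :=
  (V ×ˢ V).filter (fun p => p.1 < p.2 ∧ ¬ adj p.1 p.2)

lemma delete_two (adj : α → α → Prop) (hs : ∀ x y, adj x y → adj y x) (V : Finset α) {a c : α}
    (ha : a ∈ V) (hc : c ∈ V) (hac : a ≠ c) (S : Finset α) (hS : S ⊆ (V.erase a).erase c)
    (hx : ∀ x ∈ S, ¬ (adj x a ∧ adj x c)) :
    (nonAdj adj ((V.erase a).erase c)).card + S.card ≤ (nonAdj adj V).card := by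
  classical
  let f : α → α × α := fun x =>
    if adj x a then (if x < c then (x, c) else (c, x)) else (if x < a then (x, a) else (a, x))
  have key : ∀ x ∈ S, f x ∈ nonAdj adj V ∧ f x ∉ nonAdj adj ((V.erase a).erase c) := by
    intro x hxS
    have hm := hS hxS
    simp only [mem_erase] at hm
    obtain ⟨hxc, hxa, hxV⟩ := hm
    by_cases h : adj x a
    · have h' : ¬ adj x c := fun h' => hx x hxS ⟨h, h'⟩
      by_cases l : x < c
      · simp [f, nonAdj, h, l, hxV, hc, h']
      · have l' : c < x := lt_of_le_of_ne (le_of_not_gt l) (Ne.symm hxc)
        simp [f, nonAdj, h, l, l', hxV, hc]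
        exact fun k => h' (hs _ _ k)
    · by_cases l : x < a
      · simp [f, nonAdj, h, l, hxV, ha]
      · have l' : a < x := lt_of_le_of_ne (le_of_not_gt l) (Ne.symm hxa)
        simp [f, nonAdj, h, l, l', hxV, ha]
        exact fun k => h (hs _ _ k)
  have inj : Set.InjOn f S := by
    intro x hxS y hyS he
    have h1 := hS (Finset.mem_coe.1 hxS)
    have h2 := hS (Finset.mem_coe.1 hyS)
    simp only [mem_erase] at h1 h2
    simp only [f] at he
    split_ifs at he <;> simp only [Prod.mk.injEq] at he <;>
      first
        | exact he.1
        | exact he.2
        | exact absurd he.1 h1.1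
        | exact absurd he.1.symm h2.1
        | exact absurd he.1 h1.2.1
        | exact absurd he.1.symm h2.2.1
        | exact absurd he.2 h1.1
        | exact absurd he.2.symm h2.1
        | exact absurd he.2 h1.2.1
        | exact absurd he.2.symm h2.2.1
        | exact absurd he.1 hac
        | exact absurd he.1.symm hac
        | exact absurd he.2 hac
        | exact absurd he.2.symm hac
  have hd : Disjoint (nonAdj adj ((V.erase a).erase c)) (S.image f) := by
    rw [Finset.disjoint_left]
    intro p hp hp'
    obtain ⟨x, hxS, rfl⟩ := mem_image.1 hp'
    exact (key x hxS).2 hp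
  calc (nonAdj adj ((V.erase a).erase c)).card + S.card
      = (nonAdj adj ((V.erase a).erase c) ∪ S.image f).card := by
        rw [card_union_of_disjoint hd, card_image_of_injOn inj]
    _ ≤ _ := by
        apply card_le_card
        intro p hp
        rcases mem_union.1 hp with hp | hp
        · simp only [nonAdj, mem_filter, mem_product, mem_erase] at hp ⊢
          exact ⟨⟨hp.1.1.2.2, hp.1.2.2.2⟩, hp.2⟩
        · obtain ⟨x, hxS, rfl⟩ := mem_image.1 hp
          exact (key x hxS).1

/-- The weight of the vertex `i`. -/
noncomputable def wt (V : Finset α) (i : α) : ℕ := min (below V i) (above V i)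

lemma sum_erase_two (V : Finset α) {a c : α} (ha : a ∈ V) (hc : c ∈ V) (hac : a ≠ c)
    (g : α → ℕ) : ∑ i ∈ V, g i = g a + g c + ∑ i ∈ (V.erase a).erase c, g i := by
  classical
  rw [← Finset.add_sum_erase V g ha,
    ← Finset.add_sum_erase (V.erase a) g (mem_erase.2 ⟨hac.symm, hc⟩)]
  ring

open Classical in
/-- Weighted Mantel inequality. -/
theorem weighted_mantel (adj : α → α → Prop) (hs : ∀ x y, adj x y → adj y x) (A : α → Prop) :
    ∀ (N : ℕ) (V : Finset α), V.card = N →
      (∀ x ∈ V, ∀ i ∈ V, ∀ y ∈ V, x < i → i < y → A i → ¬ (adj x i ∧ adj i y ∧ adj x y)) →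
      ∑ i ∈ V, (if A i then wt V i else 0) ≤ (nonAdj adj V).card := by
  intro N
  induction N using Nat.strong_induction_on with
  | _ N IH =>
    intro V hN hT
    by_cases hsmall : N < 2
    · have h0 : ∀ i ∈ V, (if A i then wt V i else 0) = 0 := by
        intro i hi
        have : below V i = 0 := by
          have : V = {i} := Finset.eq_singleton_iff_unique_mem.2 ⟨hi, fun x hx =>
            Finset.card_le_one.1 (by omega) x hx i hi⟩
          unfold below
          rw [this]
          simp
        simp [wt, this]
      rw [Finset.sum_eq_zero h0]
      exact Nat.zero_le _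
    have hne : V.Nonempty := card_pos.1 (by omega)
    set lo := V.min' hne with hlo
    set hi := V.max' hne with hhi
    have lom : lo ∈ V := V.min'_mem hne
    have him : hi ∈ V := V.max'_mem hne
    have lohi : lo < hi := by
      exact V.min'_lt_max'_of_card (by omega)
    have lo_le : ∀ x ∈ V, lo ≤ x := fun x hx => V.min'_le x hx
    have le_hi : ∀ x ∈ V, x ≤ hi := fun x hx => V.le_max' x hx
    have main : ∀ a c : α, a ∈ V → c ∈ V → a ≠ c → ∀ S : Finset α,
        S ⊆ (V.erase a).erase c → (∀ x ∈ S, ¬ (adj x a ∧ adj x c)) →
        (∀ E : ℕ, (∑ i ∈ (V.erase a).erase c,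
              (if A i then wt ((V.erase a).erase c) i else 0)) = E →
            ∑ i ∈ V, (if A i then wt V i else 0) ≤ E + S.card) →
        ∑ i ∈ V, (if A i then wt V i else 0) ≤ (nonAdj adj V).card := by
      intro a c ha hc hac S hS hx hsum
      have h1 := hsum _ rfl
      have hcard : ((V.erase a).erase c).card < N := by
        rw [card_erase_of_mem (mem_erase.2 ⟨hac.symm, hc⟩), card_erase_of_mem ha]
        omega
      have h2 := IH _ hcard _ rfl (fun x hx i hi y hy => hT x (mem_of_mem_erase (mem_of_mem_erase hx))
        i (mem_of_mem_erase (mem_of_mem_erase hi)) y (mem_of_mem_erase (mem_of_mem_erase hy)))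
      have h3 := delete_two adj hs V ha hc hac S hS hx
      omega
    have wlo : wt V lo = 0 := by
      have : below V lo = 0 := by
        simp only [below, card_eq_zero, filter_eq_empty_iff]
        exact fun x hx => not_lt.2 (lo_le x hx)
      simp [wt, this]
    have whi : wt V hi = 0 := by
      have : above V hi = 0 := by
        simp only [above, card_eq_zero, filter_eq_empty_iff]
        exact fun x hx => not_lt.2 (le_hi x hx)
      simp [wt, this]
    by_cases hB : ∃ j ∈ V, lo < j ∧ j < hi ∧ A j ∧ adj lo j ∧ adj j hi
    · obtain ⟨j, hj, hlj, hjh, hAj, hl, hh⟩ := hB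
      by_cases hside : below V j ≤ above V j
      · set S := ((V.erase j).erase hi).filter (fun x => x < j ∨ A x) with hSdef
        refine main j hi hj him hjh.ne S (filter_subset _ _) ?_ ?_
        · intro x hxS ⟨e1, e2⟩
          simp only [S, mem_filter, mem_erase] at hxS
          obtain ⟨⟨hxh, hxj, hxV⟩, hor⟩ := hxS
          rcases lt_or_gt_of_ne hxj with hlt | hgt
          · exact hT x hxV j hj hi him hlt hjh hAj ⟨e1, hh, e2⟩
          · rcases hor with hor | hor
            · exact absurd hor (not_lt.2 hgt.le)
            · exact hT j hj x hxV hi him hgt (lt_of_le_of_ne (le_hi x hxV) hxh) hor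
                ⟨hs _ _ e1, e2, hh⟩
        · intro E hE
          rw [sum_erase_two V hj him hjh.ne, ← hE]
          have hb : below V j = ∑ i ∈ (V.erase j).erase hi, (if i < j then 1 else 0) := by
            rw [← Finset.card_filter, below]
            congr 1
            ext x
            simp only [mem_filter, mem_erase]
            constructor
            · exact fun h => ⟨⟨fun e => absurd (e ▸ h.2) (not_lt.2 hjh.le), h.2.ne, h.1⟩, h.2⟩
            · exact fun h => ⟨h.1.2.2, h.2⟩
          have hS2 : S.card = ∑ i ∈ (V.erase j).erase hi, (if i < j ∨ A i then 1 else 0) := by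
            rw [← Finset.card_filter]
          have hterm : ∀ i ∈ (V.erase j).erase hi,
              (if A i then wt V i else 0) + (if i < j then 1 else 0) ≤
              (if A i then wt ((V.erase j).erase hi) i else 0) + (if i < j ∨ A i then 1 else 0) := by
            intro i hi'
            simp only [mem_erase] at hi'
            have hih : i < hi := lt_of_le_of_ne (le_hi i hi'.2.2) hi'.1
            have m : hi ∈ V.erase j := mem_erase.2 ⟨hjh.ne', him⟩
            have b1 := below_erase (V.erase j) m i
            have b2 := below_erase V hj i
            have a1 := above_erase (V.erase j) m i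
            have a2 := above_erase V hj i
            rw [if_neg (not_lt.2 hih.le)] at b1
            rw [if_pos hih] at a1
            by_cases hAi : A i
            · simp only [wt, if_pos hAi]
              rcases lt_or_gt_of_ne hi'.2.1 with hlt | hgt
              · rw [if_neg (not_lt.2 hlt.le)] at b2
                rw [if_pos hlt] at a2
                have p1 : below V i + 1 ≤ below V j := by
                  unfold below
                  have hm : i ∈ V.filter (fun x => x < j) := by simp [hi'.2.2, hlt]
                  rw [← Finset.card_erase_add_one hm]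
                  apply Nat.add_le_add_right
                  apply card_le_card
                  intro x hx
                  simp only [mem_filter, mem_erase] at hx ⊢
                  exact ⟨hx.2.ne, hx.1, hx.2.trans hlt⟩
                have p2 : above V j + 1 ≤ above V i := by
                  unfold above
                  have hm : j ∈ V.filter (fun x => i < x) := by simp [hj, hlt]
                  rw [← Finset.card_erase_add_one hm]
                  apply Nat.add_le_add_right
                  apply card_le_card
                  intro x hx
                  simp only [mem_filter, mem_erase] at hx ⊢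
                  exact ⟨hx.2.ne', hx.1, hlt.trans hx.2⟩
                rw [if_pos hlt, if_pos (Or.inl hlt)]
                omega
              · rw [if_pos hgt] at b2
                rw [if_neg (not_lt.2 hgt.le)] at a2
                rw [if_neg (not_lt.2 hgt.le), if_pos (Or.inr hAi)]
                omega
            · simp [hAi]
          have := Finset.sum_le_sum hterm
          rw [sum_add_distrib, sum_add_distrib] at this
          rw [if_pos hAj]
          have hw : wt V j = below V j := min_eq_left hside
          have hz : (if A hi then wt V hi else 0) = 0 := by simp [whi]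
          omega
      · set S := ((V.erase lo).erase j).filter (fun x => j < x ∨ A x) with hSdef
        refine main lo j lom hj hlj.ne S (filter_subset _ _) ?_ ?_
        · intro x hxS ⟨e1, e2⟩
          simp only [S, mem_filter, mem_erase] at hxS
          obtain ⟨⟨hxj, hxl, hxV⟩, hor⟩ := hxS
          rcases lt_or_gt_of_ne hxj with hlt | hgt
          · rcases hor with hor | hor
            · exact absurd hor (not_lt.2 hlt.le)
            · exact hT lo lom x hxV j hj (lt_of_le_of_ne (lo_le x hxV) (Ne.symm hxl)) hlt hor
                ⟨hs _ _ e1, e2, hl⟩
          · exact hT lo lom j hj x hxV hlj hgt hAj ⟨hl, hs _ _ e2, hs _ _ e1⟩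
        · intro E hE
          rw [sum_erase_two V lom hj hlj.ne, ← hE]
          have hb : above V j = ∑ i ∈ (V.erase lo).erase j, (if j < i then 1 else 0) := by
            rw [← Finset.card_filter, above]
            congr 1
            ext x
            simp only [mem_filter, mem_erase]
            constructor
            · exact fun h => ⟨⟨h.2.ne', fun e => absurd (e ▸ h.2) (not_lt.2 hlj.le), h.1⟩, h.2⟩
            · exact fun h => ⟨h.1.2.2, h.2⟩
          have hS2 : S.card = ∑ i ∈ (V.erase lo).erase j, (if j < i ∨ A i then 1 else 0) := by
            rw [← Finset.card_filter]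
          have hterm : ∀ i ∈ (V.erase lo).erase j,
              (if A i then wt V i else 0) + (if j < i then 1 else 0) ≤
              (if A i then wt ((V.erase lo).erase j) i else 0) + (if j < i ∨ A i then 1 else 0) := by
            intro i hi'
            simp only [mem_erase] at hi'
            have hil : lo < i := lt_of_le_of_ne (lo_le i hi'.2.2) (Ne.symm hi'.2.1)
            have m : j ∈ V.erase lo := mem_erase.2 ⟨hlj.ne', hj⟩
            have b1 := below_erase (V.erase lo) m i
            have b2 := below_erase V lom i
            have a1 := above_erase (V.erase lo) m i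
            have a2 := above_erase V lom i
            rw [if_pos hil] at b2
            rw [if_neg (not_lt.2 hil.le)] at a2
            by_cases hAi : A i
            · simp only [wt, if_pos hAi]
              rcases lt_or_gt_of_ne hi'.1 with hlt | hgt
              · rw [if_neg (not_lt.2 hlt.le)] at b1
                rw [if_pos hlt] at a1
                rw [if_neg (not_lt.2 hlt.le), if_pos (Or.inr hAi)]
                omega
              · rw [if_pos hgt] at b1
                rw [if_neg (not_lt.2 hgt.le)] at a1
                have p1 : below V j + 1 ≤ below V i := by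
                  unfold below
                  have hm : j ∈ V.filter (fun x => x < i) := by simp [hj, hgt]
                  rw [← Finset.card_erase_add_one hm]
                  apply Nat.add_le_add_right
                  apply card_le_card
                  intro x hx
                  simp only [mem_filter, mem_erase] at hx ⊢
                  exact ⟨hx.2.ne, hx.1, hx.2.trans hgt⟩
                have p2 : above V i + 1 ≤ above V j := by
                  unfold above
                  have hm : i ∈ V.filter (fun x => j < x) := by simp [hi'.2.2, hgt]
                  rw [← Finset.card_erase_add_one hm]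
                  apply Nat.add_le_add_right
                  apply card_le_card
                  intro x hx
                  simp only [mem_filter, mem_erase] at hx ⊢
                  exact ⟨hx.2.ne', hx.1, hgt.trans hx.2⟩
                rw [if_pos hgt, if_pos (Or.inl hgt)]
                omega
            · simp [hAi]
          have := Finset.sum_le_sum hterm
          rw [sum_add_distrib, sum_add_distrib] at this
          rw [if_pos hAj]
          have hw : wt V j = above V j := min_eq_right (le_of_not_ge hside)
          have hz : (if A lo then wt V lo else 0) = 0 := by simp [wlo]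
          omega
    · set S := ((V.erase lo).erase hi).filter (fun x => A x) with hSdef
      refine main lo hi lom him lohi.ne S (filter_subset _ _) ?_ ?_
      · intro x hxS ⟨e1, e2⟩
        simp only [S, mem_filter, mem_erase] at hxS
        obtain ⟨⟨hxh, hxl, hxV⟩, hor⟩ := hxS
        exact hB ⟨x, hxV, lt_of_le_of_ne (lo_le x hxV) (Ne.symm hxl),
          lt_of_le_of_ne (le_hi x hxV) hxh, hor, hs _ _ e1, e2⟩
      · intro E hE
        rw [sum_erase_two V lom him lohi.ne, ← hE]
        have hS2 : S.card = ∑ i ∈ (V.erase lo).erase hi, (if A i then 1 else 0) := by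
          rw [← Finset.card_filter]
        have hterm : ∀ i ∈ (V.erase lo).erase hi,
            (if A i then wt V i else 0) ≤
            (if A i then wt ((V.erase lo).erase hi) i else 0) + (if A i then 1 else 0) := by
          intro i hi'
          simp only [mem_erase] at hi'
          have hil : lo < i := lt_of_le_of_ne (lo_le i hi'.2.2) (Ne.symm hi'.2.1)
          have hih : i < hi := lt_of_le_of_ne (le_hi i hi'.2.2) hi'.1
          have m : hi ∈ V.erase lo := mem_erase.2 ⟨lohi.ne', him⟩
          have b1 := below_erase (V.erase lo) m i
          have b2 := below_erase V lom i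
          have a1 := above_erase (V.erase lo) m i
          have a2 := above_erase V lom i
          rw [if_pos hil] at b2
          rw [if_neg (not_lt.2 hil.le)] at a2
          rw [if_neg (not_lt.2 hih.le)] at b1
          rw [if_pos hih] at a1
          by_cases hAi : A i
          · simp only [wt, if_pos hAi]
            omega
          · simp [hAi]
        have := Finset.sum_le_sum hterm
        rw [sum_add_distrib] at this
        have hz : (if A lo then wt V lo else 0) = 0 := by simp [wlo]
        have hz' : (if A hi then wt V hi else 0) = 0 := by simp [whi]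
        omega

lemma sum_min_weights : ∀ m : ℕ,
    ∑ i ∈ range m, min i (m - 1 - i) = m / 2 * ((m - 1) / 2)
  | 0 => by simp
  | 1 => by simp
  | m + 2 => by
    have ih := sum_min_weights m
    rw [Finset.sum_range_succ', Finset.sum_range_succ]
    have h : ∀ i ∈ range m, min (i + 1) (m + 2 - 1 - (i + 1)) = min i (m - 1 - i) + 1 := by
      intro i hi
      have := mem_range.1 hi
      omega
    rw [Finset.sum_congr rfl h, sum_add_distrib, ih]
    simp only [sum_const, card_range, smul_eq_mul, mul_one]
    rcases Nat.even_or_odd' m with ⟨k, rfl | rfl⟩
    · rcases k with _ | k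
      · simp
      · have e1 : (2 * (k + 1) + 2) / 2 = k + 2 := by omega
        have e2 : (2 * (k + 1) + 2 - 1) / 2 = k + 1 := by omega
        have e3 : 2 * (k + 1) / 2 = k + 1 := by omega
        have e4 : (2 * (k + 1) - 1) / 2 = k := by omega
        have e5 : min (2 * (k + 1) + 1) (2 * (k + 1) + 2 - 1 - (2 * (k + 1) + 1)) = 0 := by omega
        rw [e1, e2, e3, e4, e5]
        simp
        ring
    · have e1 : (2 * k + 1 + 2) / 2 = k + 1 := by omega
      have e2 : (2 * k + 1 + 2 - 1) / 2 = k + 1 := by omega
      have e3 : (2 * k + 1) / 2 = k := by omega
      have e4 : (2 * k + 1 - 1) / 2 = k := by omega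
      have e5 : min (2 * k + 1 + 1) (2 * k + 1 + 2 - 1 - (2 * k + 1 + 1)) = 0 := by omega
      rw [e1, e2, e3, e4, e5]
      simp
      ring

open Classical in
/-- For any two-colouring of `Fin n` at least `⌊n/2⌋⌊(n-1)/2⌋` pairs are monochromatic. -/
lemma same_pairs_lb (n : ℕ) (s : Fin n → Bool) :
    n / 2 * ((n - 1) / 2) ≤
      ((univ : Finset (Fin n × Fin n)).filter (fun p => p.1 < p.2 ∧ s p.1 = s p.2)).card := by
  set P := (univ : Finset (Fin n × Fin n)).filter (fun p => p.1 < p.2 ∧ s p.1 = s p.2) with hP
  set T := (univ : Finset (Fin n)).filter (fun x => s x = true) with hT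
  have hsub : T.offDiag ∪ Tᶜ.offDiag ⊆ P ∪ P.image Prod.swap := by
    intro p hp
    obtain ⟨x, y⟩ := p
    simp only [mem_union, mem_offDiag, mem_compl, T, mem_filter, mem_univ, true_and] at hp
    simp only [mem_union, mem_image, P, mem_filter, mem_univ, true_and, Prod.exists,
      Prod.swap_prod_mk, Prod.mk.injEq]
    have hs' : s x = s y ∧ x ≠ y := by
      rcases hp with ⟨a, b, c⟩ | ⟨a, b, c⟩
      · exact ⟨a.trans b.symm, c⟩
      · simp only [Bool.not_eq_true] at a b
        exact ⟨a.trans b.symm, c⟩
    rcases lt_or_gt_of_ne hs'.2 with h | h
    · exact Or.inl ⟨h, hs'.1⟩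
    · exact Or.inr ⟨y, x, ⟨h, hs'.1.symm⟩, rfl, rfl⟩
  have hd : Disjoint T.offDiag Tᶜ.offDiag := by
    rw [Finset.disjoint_left]
    intro p hp hp'
    simp only [mem_offDiag, mem_compl] at hp hp'
    exact hp'.1 hp.1
  have h2 := (card_le_card hsub).trans (card_union_le _ _)
  rw [card_union_of_disjoint hd, offDiag_card, offDiag_card, card_compl, Fintype.card_fin] at h2
  have h3 : (P.image Prod.swap).card = P.card := card_image_of_injective _ Prod.swap_injective
  rw [h3] at h2
  have hk : T.card ≤ n := by simpa using card_le_univ T
  obtain ⟨l, hl⟩ := Nat.exists_eq_add_of_le hk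
  have hnk : n - T.card = l := by omega
  rw [hnk] at h2
  have hsq : n ≤ T.card * T.card + l * l := by
    nlinarith [Nat.le_mul_self T.card, Nat.le_mul_self l]
  rcases Nat.even_or_odd' n with ⟨p, hp | hp⟩
  · rcases p with _ | p
    · simp [hp]
    · have e1 : n / 2 = p + 1 := by omega
      have e2 : (n - 1) / 2 = p := by omega
      rw [e1, e2]
      have : T.card * T.card + l * l ≤ 2 * P.card + (T.card + l) := by
        have := Nat.le_mul_self T.card
        have := Nat.le_mul_self l
        omega
      nlinarith [sq_nonneg ((T.card : ℤ) - l)]
  · have e1 : n / 2 = p := by omega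
    have e2 : (n - 1) / 2 = p := by omega
    rw [e1, e2]
    have h4 : T.card * T.card + l * l ≤ 2 * P.card + (T.card + l) := by
      have := Nat.le_mul_self T.card
      have := Nat.le_mul_self l
      omega
    rcases Nat.lt_or_ge T.card l with h | h
    · obtain ⟨d, rfl⟩ := Nat.exists_eq_add_of_lt h
      nlinarith
    · have hne : T.card ≠ l := by omega
      obtain ⟨d, hd'⟩ := Nat.exists_eq_add_of_lt (lt_of_le_of_ne h (Ne.symm hne))
      nlinarith

end Vale.Agent.P040
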