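import Mathlib
import Vale.Agent.P040.Graph

/-!
Counting for trees: Mantel with exceptional pairs, and the bound on ancestor pairs of a centred
branch structure.
-/

namespace Vale.Agent.P040

open Finset

open Classical in
/-- If every triangle contains an exceptional pair then there are at least
`⌊m/2⌋⌊(m-1)/2⌋` non-adjacent or exceptional pairs. -/
lemma mantel_exceptions {m : ℕ} (adj : Fin m → Fin m → Prop)
    (hs : ∀ x y, adj x y → adj y x) (R : Finset (Fin m × Fin m))
    (hT : ∀ x i y, x < i → i < y → adj x i → adj i y → adj x y →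
      (x, i) ∈ R ∨ (i, x) ∈ R ∨ (i, y) ∈ R ∨ (y, i) ∈ R ∨ (x, y) ∈ R ∨ (y, x) ∈ R) :
    m / 2 * ((m - 1) / 2) ≤ (nonAdj adj Finset.univ).card + R.card := by
  set adj' : Fin m → Fin m → Prop := fun x y => adj x y ∧ (x, y) ∉ R ∧ (y, x) ∉ R with hadj'
  have h := weighted_mantel adj' (fun x y h => ⟨hs _ _ h.1, h.2.2, h.2.1⟩) (fun _ => True) _
    (Finset.univ : Finset (Fin m)) rfl (by
      intro x _ i _ y _ h1 h2 _ ⟨a1, a2, a3⟩
      rcases hT x i y h1 h2 a1.1 a2.1 a3.1 with e | e | e | e | e | e
      · exact a1.2.1 e
      · exact a1.2.2 e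
      · exact a2.2.1 e
      · exact a2.2.2 e
      · exact a3.2.1 e
      · exact a3.2.2 e)
  have hw : ∀ i : Fin m, wt (Finset.univ : Finset (Fin m)) i = min (i : ℕ) (m - 1 - i) := by
    intro i
    have hb : below (Finset.univ : Finset (Fin m)) i = i := by
      unfold below
      rw [show (Finset.univ : Finset (Fin m)).filter (fun x => x < i) = Finset.Iio i by ext; simp,
        Fin.card_Iio]
    have ha : above (Finset.univ : Finset (Fin m)) i = m - 1 - i := by
      unfold above
      rw [show (Finset.univ : Finset (Fin m)).filter (fun x => i < x) = Finset.Ioi i by ext; simp,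
        Fin.card_Ioi]
    simp [wt, hb, ha]
  simp only [if_true] at h
  rw [Finset.sum_congr rfl (fun i _ => hw i),
    Fin.sum_univ_eq_sum_range (fun i => min i (m - 1 - i)) m, sum_min_weights] at h
  set key : Fin m × Fin m → Fin m × Fin m := fun p => if p.1 < p.2 then p else p.swap with hkey
  have hsub : nonAdj adj' Finset.univ ⊆ nonAdj adj Finset.univ ∪ R.image key := by
    intro p hp
    simp only [nonAdj, mem_filter, mem_product, mem_univ, true_and, hadj', not_and_or,
      not_not] at hp
    obtain ⟨hlt, hp | hp | hp⟩ := hp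
    · exact mem_union_left _ (by simp [nonAdj, hlt, hp])
    · exact mem_union_right _ (mem_image.2 ⟨_, hp, by simp [hkey, hlt]⟩)
    · exact mem_union_right _ (mem_image.2 ⟨_, hp, by simp [hkey, not_lt.2 hlt.le]⟩)
  have h2 := (card_le_card hsub).trans (card_union_le _ _)
  have h3 := card_image_le (s := R) (f := key)
  omega

lemma sum_staircase : ∀ m : ℕ, ∑ t ∈ range m, (m - 2 * (t + 1)) = m / 2 * ((m - 1) / 2)
  | 0 => by simp
  | 1 => by simp
  | m + 2 => by
    rw [Finset.sum_range_succ', Finset.sum_range_succ]
    have h : ∀ t ∈ range m, (m + 2 - 2 * (t + 1 + 1)) = (m - 2 * (t + 1)) := by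
      intro t _
      omega
    rw [Finset.sum_congr rfl h, sum_staircase m]
    have e1 : m + 2 - 2 * (m + 1 + 1) = 0 := by omega
    have e2 : (m + 2) / 2 = m / 2 + 1 := by omega
    have e3 : (m + 2 - 1) / 2 = (m + 1) / 2 := by omega
    rw [e1, e2, e3]
    rcases Nat.even_or_odd' m with ⟨k, rfl | rfl⟩
    · rcases k with _ | k
      · simp
      · have a1 : 2 * (k + 1) / 2 = k + 1 := by omega
        have a2 : (2 * (k + 1) - 1) / 2 = k := by omega
        have a3 : (2 * (k + 1) + 1) / 2 = k + 1 := by omega
        rw [a1, a2, a3]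
        simp
        ring
    · have a1 : (2 * k + 1) / 2 = k := by omega
      have a2 : (2 * k + 1 - 1) / 2 = k := by omega
      have a3 : (2 * k + 1 + 1) / 2 = k + 1 := by omega
      rw [a1, a2, a3]
      simp
      ring

/-- A branch structure: `sb i` is an equivalence on the other vertices, and vertices in different
branches at `i` have `i` on their common side. -/
structure Branches (m : ℕ) where
  /-- same branch at the first vertex -/
  sb : Fin m → Fin m → Fin m → Prop
  refl : ∀ {i u}, u ≠ i → sb i u u
  symm : ∀ {i u v}, sb i u v → sb i v u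
  trans : ∀ {i u v w}, sb i u v → sb i v w → sb i u w
  ne : ∀ {i u v}, sb i u v → u ≠ i ∧ v ≠ i
  sep : ∀ {i u z}, u ≠ i → z ≠ i → u ≠ z → ¬ sb i z u → sb z i u

namespace Branches

variable {m : ℕ} (B : Branches m)

open Classical in
/-- The branch of `u` at `i`. -/
noncomputable def br (i u : Fin m) : Finset (Fin m) := Finset.univ.filter (fun v => B.sb i u v)

open Classical in
/-- A vertex in a largest branch at `i`. -/
noncomputable def big (i : Fin m) : Fin m :=
  if h : (Finset.univ.erase i).Nonempty then
    Classical.choose ((Finset.univ.erase i).exists_max_image (fun u => (B.br i u).card) h)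
  else i

lemma big_spec {i u : Fin m} (hu : u ≠ i) :
    B.big i ≠ i ∧ (B.br i u).card ≤ (B.br i (B.big i)).card := by
  have h : (Finset.univ.erase i).Nonempty := ⟨u, by simp [hu]⟩
  have := Classical.choose_spec
    ((Finset.univ.erase i).exists_max_image (fun u => (B.br i u).card) h)
  rw [big, dif_pos h]
  exact ⟨(Finset.mem_erase.1 this.1).1, this.2 u (by simp [hu])⟩

/-- `z` lies outside the largest branch at `i`. -/
def Anc (i z : Fin m) : Prop := z ≠ i ∧ ¬ B.sb i (B.big i) z

lemma asymm {i z : Fin m} (h : B.Anc i z) : ¬ B.Anc z i := by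
  classical
  intro h'
  obtain ⟨hzi, hnz⟩ := h
  obtain ⟨hiz, hni⟩ := h'
  have hb := B.big_spec (i := i) (u := z) hzi
  have hbz := B.big_spec (i := z) (u := i) hiz
  have h1 : (B.br i (B.big i)).card + 1 ≤ (B.br z i).card := by
    rw [← Finset.card_insert_of_notMem (s := B.br i (B.big i)) (a := i)
      (by simp only [br, mem_filter, mem_univ, true_and]; exact fun e => (B.ne e).2 rfl)]
    apply card_le_card
    intro u hu
    simp only [br, mem_insert, mem_filter, mem_univ, true_and] at hu ⊢
    rcases hu with rfl | hu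
    · exact B.refl hiz
    · exact B.sep (B.ne hu).2 hzi (fun e => hnz (e ▸ hu))
        (fun e => hnz (B.trans hu (B.symm e)))
  have h2 : (B.br z (B.big z)).card ≤ (B.br i z).card := by
    apply card_le_card
    intro u hu
    simp only [br, mem_filter, mem_univ, true_and] at hu ⊢
    have hui : u ≠ i := fun e => hni (e ▸ hu)
    exact B.sep (B.ne hu).2 hiz hui (fun e => hni (B.trans hu (B.symm e)))
  omega

lemma anc_trans {i z w : Fin m} (h : B.Anc i z) (h' : B.Anc z w) : B.Anc i w := by
  have hwi : w ≠ i := fun e => B.asymm h (e ▸ h')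
  refine ⟨hwi, fun hb => ?_⟩
  have hzw : ¬ B.sb i z w := fun e => h.2 (B.trans hb (B.symm e))
  have hwz : B.sb z i w := B.sep hwi h.1 h'.1 hzw
  have hzi : B.sb z (B.big z) i := by
    by_contra e
    exact B.asymm h ⟨h.1.symm, e⟩
  exact h'.2 (B.trans hzi hwz)

lemma linear {i k z : Fin m} (h : B.Anc i z) (h' : B.Anc k z) (hne : i ≠ k) :
    B.Anc i k ∨ B.Anc k i := by
  by_cases hik : B.sb i (B.big i) k
  · right
    refine ⟨hne, fun hb => ?_⟩
    have hzk : ¬ B.sb i k z := fun e => h.2 (B.trans hik e)
    have : B.sb k i z := B.sep h.1 hne.symm h'.1 hzk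
    exact h'.2 (B.trans hb this)
  · exact Or.inl ⟨hne.symm, hik⟩

open Classical in
/-- The ancestors of `z`. -/
noncomputable def ancs (z : Fin m) : Finset (Fin m) :=
  Finset.univ.filter (fun i => B.Anc i z)

lemma mem_ancs {i z : Fin m} : i ∈ B.ancs z ↔ B.Anc i z := by
  simp [ancs]

lemma card_ancs_lt {i z : Fin m} (h : B.Anc i z) : (B.ancs i).card < (B.ancs z).card := by
  classical
  apply card_lt_card
  rw [Finset.ssubset_iff_of_subset]
  · exact ⟨i, (B.mem_ancs).2 h, fun e => ((B.mem_ancs).1 e).1 rfl⟩
  · intro k hk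
    exact (B.mem_ancs).2 (B.anc_trans ((B.mem_ancs).1 hk) h)

lemma inj_depth {z : Fin m} : Set.InjOn (fun i => (B.ancs i).card) (B.ancs z) := by
  intro i hi k hk he
  simp only [mem_coe, mem_ancs] at hi hk
  by_contra hne
  rcases B.linear hi hk hne with h | h
  · exact (B.card_ancs_lt h).ne he
  · exact (B.card_ancs_lt h).ne' he

open Classical in
lemma low_ancs {z : Fin m} {t : ℕ} (ht : t ≤ (B.ancs z).card) :
    t ≤ ((B.ancs z).filter (fun i => (B.ancs i).card < t)).card := by
  have himg : (B.ancs z).image (fun i => (B.ancs i).card) = range (B.ancs z).card := by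
    apply Finset.eq_of_subset_of_card_le
    · intro k hk
      obtain ⟨i, hi, rfl⟩ := mem_image.1 hk
      exact mem_range.2 (B.card_ancs_lt ((B.mem_ancs).1 hi))
    · rw [card_image_of_injOn B.inj_depth, card_range]
  calc t = (range t).card := (card_range t).symm
    _ ≤ (((B.ancs z).filter (fun i => (B.ancs i).card < t)).image
          (fun i => (B.ancs i).card)).card := by
        apply card_le_card
        intro k hk
        have hk' : k ∈ range (B.ancs z).card := mem_range.2 ((mem_range.1 hk).trans_le ht)
        rw [← himg] at hk'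
        obtain ⟨i, hi, rfl⟩ := mem_image.1 hk'
        exact mem_image.2 ⟨i, mem_filter.2 ⟨hi, mem_range.1 hk⟩, rfl⟩
    _ ≤ _ := card_image_le

open Classical in
lemma depth_count (t : ℕ) (ht : 1 ≤ t) :
    (Finset.univ.filter (fun z => t ≤ (B.ancs z).card)).card ≤ m - 2 * t := by
  set L := Finset.univ.filter (fun z : Fin m => (B.ancs z).card < t) with hL
  by_cases hE : ∃ z, t ≤ (B.ancs z).card
  swap
  · rw [Finset.filter_eq_empty_iff.2 (fun z _ h => hE ⟨z, h⟩), card_empty]
    exact Nat.zero_le _
  obtain ⟨z, hz⟩ := hE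
  suffices h2 : 2 * t ≤ L.card by
    have := Finset.card_filter_add_card_filter_not (s := (Finset.univ : Finset (Fin m)))
      (fun z => t ≤ (B.ancs z).card)
    simp only [not_le, card_univ, Fintype.card_fin] at this
    rw [← hL] at this
    omega
  obtain ⟨j, hj, hj0⟩ : ∃ j ∈ B.ancs z, (B.ancs j).card = 0 := by
    obtain ⟨j, hj, hjmin⟩ := (B.ancs z).exists_min_image (fun i => (B.ancs i).card)
      (card_pos.1 (by omega))
    refine ⟨j, hj, ?_⟩
    have h1 := B.low_ancs (z := z) (t := 1) (by omega)
    obtain ⟨i, hi⟩ := card_pos.1 h1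
    have := hjmin i (mem_filter.1 hi).1
    have := (mem_filter.1 hi).2
    omega
  have hjz := (B.mem_ancs).1 hj
  set X := B.br j (B.big j) with hX
  have top : ∀ i, ¬ B.Anc i j := fun i hi => by
    have := card_pos.2 ⟨i, (B.mem_ancs).2 hi⟩
    omega
  have below_j : ∀ i ∈ B.ancs z, i ≠ j → B.Anc j i := by
    intro i hi hne
    rcases B.linear ((B.mem_ancs).1 hi) hjz hne with h | h
    · exact absurd h (top i)
    · exact h
  set A1 := (B.ancs z).filter (fun i => (B.ancs i).card < t) with hA1
  have hA1L : A1 ⊆ L := fun i hi => mem_filter.2 ⟨mem_univ _, (mem_filter.1 hi).2⟩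
  by_cases hw : ∃ w ∈ X, t ≤ (B.ancs w).card
  · obtain ⟨w, hwX, hwt⟩ := hw
    simp only [hX, br, mem_filter, mem_univ, true_and] at hwX
    set A2 := (B.ancs w).filter (fun i => (B.ancs i).card < t) with hA2
    have hd : Disjoint A1 A2 := by
      rw [Finset.disjoint_left]
      intro i h1 h2
      have hiw := (B.mem_ancs).1 (mem_filter.1 h2).1
      rcases eq_or_ne i j with rfl | hne
      · exact hiw.2 hwX
      · exact (B.anc_trans (below_j i (mem_filter.1 h1).1 hne) hiw).2 hwX
    have : A1.card + A2.card ≤ L.card := by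
      rw [← card_union_of_disjoint hd]
      exact card_le_card (union_subset hA1L fun i hi =>
        mem_filter.2 ⟨mem_univ _, (mem_filter.1 hi).2⟩)
    have := B.low_ancs hz
    have := B.low_ancs hwt
    simp only [← hA1, ← hA2] at *
    omega
  · simp only [not_exists, not_and, not_le] at hw
    have hd : Disjoint A1 X := by
      rw [Finset.disjoint_left]
      intro i h1 h2
      simp only [hX, br, mem_filter, mem_univ, true_and] at h2
      rcases eq_or_ne i j with rfl | hne
      · exact (B.ne h2).2 rfl
      · exact (below_j i (mem_filter.1 h1).1 hne).2 h2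
    have h3 : A1.card + X.card ≤ L.card := by
      rw [← card_union_of_disjoint hd]
      exact card_le_card (union_subset hA1L fun i hi => mem_filter.2 ⟨mem_univ _, hw i hi⟩)
    have h4 : (B.ancs z).card ≤ (B.br j z).card := by
      have hins : insert z ((B.ancs z).erase j) ⊆ B.br j z := by
        intro i hi
        simp only [br, mem_filter, mem_univ, true_and]
        rcases mem_insert.1 hi with rfl | hi
        · exact B.refl hjz.1
        · obtain ⟨hij, hiz⟩ := mem_erase.1 hi
          by_contra hne
          have hiz' := (B.mem_ancs).1 hiz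
          have h1 : B.sb i (B.big i) j := by
            by_contra e
            exact top i ⟨hij.symm, e⟩
          have h2 : B.sb i j z := B.sep hjz.1 hij hiz'.1 (fun e => hne (B.symm e))
          exact hiz'.2 (B.trans h1 h2)
      have := card_le_card hins
      rw [card_insert_of_notMem (fun e => ((B.mem_ancs).1 (mem_erase.1 e).2).1 rfl),
        card_erase_of_mem hj] at this
      omega
    have h5 := (B.big_spec (i := j) (u := z) hjz.1).2
    have := B.low_ancs hz
    simp only [← hA1, ← hX] at *
    omega

open Classical in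
/-- At most `⌊m/2⌋⌊(m-1)/2⌋` ordered pairs lie in the ancestor relation. -/
theorem card_anc_pairs :
    ((Finset.univ : Finset (Fin m × Fin m)).filter (fun p => B.Anc p.1 p.2)).card
      ≤ m / 2 * ((m - 1) / 2) := by
  have h1 : ((Finset.univ : Finset (Fin m × Fin m)).filter (fun p => B.Anc p.1 p.2)).card
      = ∑ z, (B.ancs z).card := by
    simp only [ancs, Finset.card_filter]
    rw [← Finset.univ_product_univ, Finset.sum_product_right]
  have h2 : ∀ z, (B.ancs z).card = ∑ t ∈ range m, (if t < (B.ancs z).card then 1 else 0) := by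
    intro z
    have hle : (B.ancs z).card ≤ m := by simpa using card_le_univ (B.ancs z)
    rw [← Finset.card_filter,
      show (range m).filter (fun t => t < (B.ancs z).card) = range (B.ancs z).card by
        ext t; simp; omega,
      card_range]
  rw [h1, Finset.sum_congr rfl (fun z _ => h2 z), Finset.sum_comm, ← sum_staircase m]
  refine Finset.sum_le_sum fun t _ => ?_
  rw [← Finset.card_filter]
  exact B.depth_count (t + 1) (by omega)

end Branches

end Vale.Agent.P040
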