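import Mathlib

/-!
Drawings of complete bipartite graphs in the plane and uncrossed arcs through vertex sets.
-/

namespace Vale.Agent.P040

open Set

/-- A drawing of `K_{m,n}` in the plane: distinct points for the vertices, simple arcs for the
edges, edge interiors avoid all vertices, edge interiors meet in finitely many points and no point
lies in three edge interiors. (Transversality is not required.) -/
structure Drawing (m n : ℕ) where
  /-- the first colour class -/
  a : Fin m → ℂ
  /-- the second colour class -/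
  b : Fin n → ℂ
  /-- the edges, parametrised by `[0,1]` -/
  edge : Fin m × Fin n → ℝ → ℂ
  a_inj : Function.Injective a
  b_inj : Function.Injective b
  ab_ne : ∀ i j, a i ≠ b j
  cont : ∀ e, ContinuousOn (edge e) (Icc 0 1)
  start : ∀ e, edge e 0 = a e.1
  finish : ∀ e, edge e 1 = b e.2
  simple : ∀ e, InjOn (edge e) (Icc 0 1)
  avoid_a : ∀ e i, a i ∉ edge e '' Ioo 0 1
  avoid_b : ∀ e j, b j ∉ edge e '' Ioo 0 1
  finite : {z | ∃ e f, e ≠ f ∧ z ∈ edge e '' Ioo 0 1 ∧ z ∈ edge f '' Ioo 0 1}.Finite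
  two_only : ∀ e f g, e ≠ f → e ≠ g → f ≠ g →
    edge e '' Ioo 0 1 ∩ edge f '' Ioo 0 1 ∩ edge g '' Ioo 0 1 = ∅

/-- The crossing points of a drawing. -/
def Drawing.crossings {m n : ℕ} (D : Drawing m n) : Set ℂ :=
  {z | ∃ e f, e ≠ f ∧ z ∈ D.edge e '' Ioo 0 1 ∧ z ∈ D.edge f '' Ioo 0 1}

/-- The closed segment from `0` to `1` in the plane. -/
def segment01 : Set ℂ := {z | z.im = 0 ∧ 0 ≤ z.re ∧ z.re ≤ 1}

/-- `S` contains all the points `P`, none of the points `Q`, and meets no edge interior. -/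
def Drawing.UncrossedThrough {m n k l : ℕ} (D : Drawing m n) (P : Fin k → ℂ) (Q : Fin l → ℂ)
    (S : Set ℂ) : Prop :=
  (∀ i, P i ∈ S) ∧ (∀ j, Q j ∉ S) ∧ ∀ e, Disjoint (D.edge e '' Ioo 0 1) S

/-- An arc that some homeomorphism of the plane straightens to a segment. -/
def IsPlaneArc (S : Set ℂ) : Prop := ∃ h : ℂ ≃ₜ ℂ, h '' S = segment01

/-- One of the two colour classes lies on an arc that no edge crosses. -/
def Drawing.ClassOnUncrossedArc {m n : ℕ} (D : Drawing m n) : Prop :=
  ∃ S : Set ℂ, IsPlaneArc S ∧ (D.UncrossedThrough D.a D.b S ∨ D.UncrossedThrough D.b D.a S)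

end Vale.Agent.P040
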