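import Mathlib
import Vale.Agent.P040.Defs
import Vale.Agent.P040.Graph
import Vale.Agent.P040.SlitMap

/-!
The crossing bound for drawings with an uncrossed arc through a colour class.
-/

namespace Vale.Agent.P040

open Set Finset

section

variable {m n : ℕ} (D : Drawing m n) (h : ℂ ≃ₜ ℂ)

/-- The straightened edge. -/
noncomputable def straight (e : Fin m × Fin n) (t : ℝ) : ℂ := h (D.edge e t)

/-- The two edges meet in their interiors. -/
def Crosses (e f : Fin m × Fin n) : Prop :=
  (D.edge e '' Set.Ioo 0 1 ∩ D.edge f '' Set.Ioo 0 1).Nonempty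

lemma Crosses.symm' {e f : Fin m × Fin n} (hc : Crosses D e f) : Crosses D f e := by
  unfold Crosses at *
  rwa [Set.inter_comm]

/-- For two stars, neither of the two edge pairs on `i` and `l` crosses. -/
def BothFree (q q' : Fin n) (i l : Fin m) : Prop :=
  ¬ Crosses D (i, q) (l, q') ∧ ¬ Crosses D (l, q) (i, q')

lemma straight_slitArc (hu : D.UncrossedThrough D.a D.b (h ⁻¹' segment01)) (e : Fin m × Fin n) :
    SlitArc (straight D h e) := by
  obtain ⟨hP, hQ, hE⟩ := hu
  refine ⟨h.continuous.comp_continuousOn (D.cont e), ?_, ?_⟩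
  · simp only [straight, D.start]
    exact hP e.1
  · intro t ht
    rcases ht.2.eq_or_lt with h1 | h1
    · simp only [straight, h1, D.finish]
      exact hQ e.2
    · intro hs
      exact Set.disjoint_left.1 (hE e) ⟨t, ⟨ht.1, h1⟩, rfl⟩ hs

lemma bothFree_triangle (hu : D.UncrossedThrough D.a D.b (h ⁻¹' segment01))
    {q q' : Fin n} (hq : q ≠ q') {x i y : Fin m}
    (hxi : (h (D.a x)).re < (h (D.a i)).re) (hiy : (h (D.a i)).re < (h (D.a y)).re)
    (hs : side (straight D h (i, q)) = side (straight D h (i, q'))) :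
    ¬ (BothFree D q q' x i ∧ BothFree D q q' i y ∧ BothFree D q q' x y) := by
  intro ⟨h1, h2, h3⟩
  set W : Fin m × Fin n → ℝ → ℂ := fun e => discImage (straight D h e) with hW
  set c : Fin m → ℝ := fun k => (h (D.a k)).re with hc
  set S : Fin m × Fin n → Bool := fun e => side (straight D h e) with hS
  have hstart : ∀ e, (straight D h e 0).re = c e.1 := fun e => by simp [straight, D.start, hc]
  set A : Fin m × Fin n → ℝ := fun e => pos (c e.1) (S e) with hA
  have harc : ∀ e, DiscArc (W e) (A e) := fun e => by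
    have := discImage_arc (straight_slitArc D h hu e)
    rwa [hstart] at this
  have hseg : ∀ k, 0 ≤ c k ∧ c k ≤ 1 := fun k => ⟨(hu.1 k).2.1, (hu.1 k).2.2⟩
  have hS0 : ∀ e, S e = true → 0 < c e.1 := fun e he => by
    have := (side_true he).1
    rwa [hstart] at this
  have hend : ∀ k p, W (k, p) 1 = slit (h (D.b p)) := fun k p => by
    simp [hW, discImage, straight, D.finish]
  set u : Fin m → ℤ := fun k => uNum (W (k, q)) (A (k, q)) (slit (h (D.b q'))) with hu'
  set v : Fin m → ℤ := fun k => vNum (W (k, q')) (A (k, q')) (slit (h (D.b q))) with hv'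
  have eqn : ∀ k l : Fin m, A (k, q) ≠ A (l, q') → ¬ Crosses D (k, q) (l, q') →
      v l = u k + (if A (l, q') < A (k, q) then 1 else 0) := by
    intro k l hne hno
    have hdis : ∀ t ∈ Set.Ioc (0 : ℝ) 1, ∀ s ∈ Set.Ioc (0 : ℝ) 1,
        W (k, q) t ≠ W (l, q') s := by
      intro t ht s hs' he
      simp only [hW, discImage, if_neg (not_le.2 ht.1), if_neg (not_le.2 hs'.1)] at he
      have he' := slit_inj ((straight_slitArc D h hu (k, q)).off t ht)
        ((straight_slitArc D h hu (l, q')).off s hs') he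
      have e' : D.edge (k, q) t = D.edge (l, q') s := h.injective he'
      rcases ht.2.eq_or_lt with t1 | t1 <;> rcases hs'.2.eq_or_lt with s1 | s1
      · rw [t1, s1, D.finish, D.finish] at e'
        exact hq (D.b_inj e')
      · rw [t1, D.finish] at e'
        exact D.avoid_b (l, q') q ⟨s, ⟨hs'.1, s1⟩, e'.symm⟩
      · rw [s1, D.finish] at e'
        exact D.avoid_b (k, q) q' ⟨t, ⟨ht.1, t1⟩, e'⟩
      · exact hno ⟨D.edge (k, q) t, ⟨t, ⟨ht.1, t1⟩, rfl⟩, ⟨s, ⟨hs'.1, s1⟩, e'.symm⟩⟩
    have := winding_of_disjoint (harc (k, q)) (harc (l, q')) hne hdis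
    rw [hend, hend] at this
    exact this
  have hxy : c x < c y := hxi.trans hiy
  have O : ∀ k l : Fin m, c k < c l → ∀ p p' : Fin n,
      (A (k, p) < A (l, p') ↔ S (k, p) = false) ∧ (A (l, p') < A (k, p) ↔ S (k, p) = true) :=
    fun k l hkl p p' => pos_order (hseg k).1 hkl (hseg l).2 (hS0 (k, p))
  have ne1 : ∀ k l : Fin m, c k < c l → ∀ p p' : Fin n, A (k, p) ≠ A (l, p') := by
    intro k l hkl p p' he
    obtain ⟨o1, o2⟩ := O k l hkl p p'
    rw [he] at o1 o2
    cases hb : S (k, p) with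
    | false => exact lt_irrefl _ (o1.2 hb)
    | true => exact lt_irrefl _ (o2.2 hb)
  have e1 := eqn x i (ne1 x i hxi q q') h1.1
  have e2 := eqn i x (ne1 x i hxi q' q).symm h1.2
  have e3 := eqn i y (ne1 i y hiy q q') h2.1
  have e4 := eqn y i (ne1 i y hiy q' q).symm h2.2
  have e5 := eqn x y (ne1 x y hxy q q') h3.1
  have e6 := eqn y x (ne1 x y hxy q' q).symm h3.2
  rw [if_congr (O x i hxi q q').2 rfl rfl] at e1
  rw [if_congr (O x i hxi q' q).1 rfl rfl] at e2
  rw [if_congr (O i y hiy q q').2 rfl rfl] at e3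
  rw [if_congr (O i y hiy q' q).1 rfl rfl] at e4
  rw [if_congr (O x y hxy q q').2 rfl rfl] at e5
  rw [if_congr (O x y hxy q' q).1 rfl rfl] at e6
  have hs' : S (i, q) = S (i, q') := hs
  rw [hs'] at e3
  cases hA1 : S (x, q) <;> cases hA2 : S (x, q') <;> cases hA3 : S (i, q') <;>
    simp [hA1, hA2, hA3] at e1 e2 e3 e4 e5 e6 <;> omega

end

lemma below_univ {m : ℕ} (i : Fin m) : below (Finset.univ : Finset (Fin m)) i = i := by
  classical
  unfold below
  rw [show (Finset.univ : Finset (Fin m)).filter (fun x => x < i) = Finset.Iio i by ext; simp,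
    Fin.card_Iio]

lemma above_univ {m : ℕ} (i : Fin m) :
    above (Finset.univ : Finset (Fin m)) i = m - 1 - i := by
  classical
  unfold above
  rw [show (Finset.univ : Finset (Fin m)).filter (fun x => i < x) = Finset.Ioi i by ext; simp,
    Fin.card_Ioi]

open Classical in
/-- The bound when the first class lies on the arc. -/
theorem bound_of_left {m n : ℕ} (D : Drawing m n) (h : ℂ ≃ₜ ℂ)
    (hu : D.UncrossedThrough D.a D.b (h ⁻¹' segment01)) :
    m / 2 * ((m - 1) / 2) * (n / 2 * ((n - 1) / 2)) ≤ D.crossings.ncard := by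
  set c : Fin m → ℝ := fun k => (h (D.a k)).re with hc
  have c_inj : Function.Injective c := by
    intro k l hkl
    apply D.a_inj
    apply h.injective
    exact Complex.ext hkl ((hu.1 k).1.trans (hu.1 l).1.symm)
  set σ := Tuple.sort c with hσ
  have hmono : StrictMono (c ∘ σ) :=
    (Tuple.monotone_sort c).strictMono_of_injective (c_inj.comp σ.injective)
  set P := (Finset.univ : Finset (Fin n × Fin n)).filter (fun p => p.1 < p.2) with hP
  set adj : Fin n × Fin n → Fin m → Fin m → Prop :=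
    fun p k l => BothFree D p.1 p.2 (σ k) (σ l) with hadj
  set A : Fin n × Fin n → Fin m → Prop :=
    fun p k => side (straight D h (σ k, p.1)) = side (straight D h (σ k, p.2)) with hA
  have step : ∀ p ∈ P, ∑ k, (if A p k then min (k : ℕ) (m - 1 - k) else 0)
      ≤ (nonAdj (adj p) Finset.univ).card := by
    intro p hp
    have := weighted_mantel (adj p) (fun k l hkl => ⟨hkl.2, hkl.1⟩) (A p) _
      (Finset.univ : Finset (Fin m)) rfl
      (fun x _ i _ y _ hxi hiy hAi => bothFree_triangle D h hu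
        (by simp only [hP, Finset.mem_filter] at hp; exact hp.2.ne)
        (hmono hxi) (hmono hiy) hAi)
    simp only [wt, below_univ, above_univ] at this
    convert this using 3
  have lower : m / 2 * ((m - 1) / 2) * (n / 2 * ((n - 1) / 2))
      ≤ ∑ p ∈ P, (nonAdj (adj p) Finset.univ).card := by
    refine le_trans ?_ (Finset.sum_le_sum step)
    rw [Finset.sum_comm, ← sum_min_weights m,
      ← Fin.sum_univ_eq_sum_range (fun i => min i (m - 1 - i)) m, Finset.sum_mul]
    refine Finset.sum_le_sum fun k _ => ?_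
    rw [← Finset.sum_filter, Finset.sum_const, smul_eq_mul,
      mul_comm (min (k : ℕ) (m - 1 - k))]
    apply Nat.mul_le_mul_right
    refine (same_pairs_lb n (fun q => side (straight D h (σ k, q)))).trans (le_of_eq ?_)
    rw [hP, Finset.filter_filter]
  refine lower.trans ?_
  rw [← Finset.card_sigma]
  set X := P.sigma fun p => nonAdj (adj p) Finset.univ with hX
  have hex : ∀ z ∈ X, ∃ w : ℂ, ∃ e f : Fin m × Fin n,
      w ∈ D.edge e '' Set.Ioo 0 1 ∧ w ∈ D.edge f '' Set.Ioo 0 1 ∧
      e.2 = z.1.1 ∧ f.2 = z.1.2 ∧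
      ((e.1 = σ z.2.1 ∧ f.1 = σ z.2.2) ∨ (e.1 = σ z.2.2 ∧ f.1 = σ z.2.1)) := by
    intro z hz
    simp only [hX, Finset.mem_sigma, nonAdj, Finset.mem_filter, hadj, BothFree,
      not_and_or, not_not] at hz
    rcases hz.2.2.2 with ⟨w, hw⟩ | ⟨w, hw⟩
    · exact ⟨w, (σ z.2.1, z.1.1), (σ z.2.2, z.1.2), hw.1, hw.2, rfl, rfl, Or.inl ⟨rfl, rfl⟩⟩
    · exact ⟨w, (σ z.2.2, z.1.1), (σ z.2.1, z.1.2), hw.1, hw.2, rfl, rfl, Or.inr ⟨rfl, rfl⟩⟩
  rcases X.eq_empty_or_nonempty with hX0 | ⟨z0, -⟩
  · simp [hX0]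
  haveI : Nonempty (Fin m × Fin n) := ⟨(σ z0.2.1, z0.1.1)⟩
  choose! w e f we wf he hf hor using hex
  have hne : ∀ z ∈ X, e z ≠ f z := by
    intro z hz hef
    have hlt : z.1.1 < z.1.2 := by
      simp only [hX, hP, Finset.mem_sigma, Finset.mem_filter] at hz
      exact hz.1.2
    rw [← he z hz, ← hf z hz, hef] at hlt
    exact lt_irrefl _ hlt
  rw [← Set.ncard_coe_finset]
  refine Set.ncard_le_ncard_of_injOn w ?_ ?_ D.finite
  · intro z hz
    exact ⟨e z, f z, hne z hz, we z hz, wf z hz⟩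
  · intro z hz z' hz' hw
    have hz1 : z.1.1 < z.1.2 ∧ z.2.1 < z.2.2 := by
      simp only [hX, hP, Finset.mem_coe, Finset.mem_sigma, Finset.mem_filter, nonAdj] at hz
      exact ⟨hz.1.2, hz.2.2.1⟩
    have hz2 : z'.1.1 < z'.1.2 ∧ z'.2.1 < z'.2.2 := by
      simp only [hX, hP, Finset.mem_coe, Finset.mem_sigma, Finset.mem_filter, nonAdj] at hz'
      exact ⟨hz'.1.2, hz'.2.2.1⟩
    have pick : ∀ g, w z ∈ D.edge g '' Set.Ioo 0 1 → g = e z ∨ g = f z := by
      intro g hg
      by_contra hno
      simp only [not_or] at hno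
      have := D.two_only (e z) (f z) g (hne z hz) (Ne.symm hno.1) (Ne.symm hno.2)
      exact Set.eq_empty_iff_forall_notMem.1 this (w z) ⟨⟨we z hz, wf z hz⟩, hg⟩
    have ne' := hne z' hz'
    have p1 := pick (e z') (hw ▸ we z' hz')
    have p2 := pick (f z') (hw ▸ wf z' hz')
    have heq : e z' = e z ∧ f z' = f z := by
      rcases p1 with p1 | p1 <;> rcases p2 with p2 | p2
      · exact absurd (p1.trans p2.symm) ne'
      · exact ⟨p1, p2⟩
      · exfalso
        have a1 : z'.1.1 = z.1.2 := by rw [← he z' hz', p1, hf z hz]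
        have a2 : z'.1.2 = z.1.1 := by rw [← hf z' hz', p2, he z hz]
        have := hz2.1
        rw [a1, a2] at this
        exact lt_asymm this hz1.1
      · exact absurd (p1.trans p2.symm) ne'
    have hb1 : z'.1 = z.1 := Prod.ext
      (by rw [← he z' hz', heq.1, he z hz]) (by rw [← hf z' hz', heq.2, hf z hz])
    have hb2 : z'.2 = z.2 := by
      have o := hor z hz
      have o' := hor z' hz'
      rw [heq.1, heq.2] at o'
      rcases o with ⟨q1, q2⟩ | ⟨q1, q2⟩ <;> rcases o' with ⟨r1, r2⟩ | ⟨r1, r2⟩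
      · exact Prod.ext (σ.injective (r1.symm.trans q1)) (σ.injective (r2.symm.trans q2))
      · exfalso
        have a1 : z'.2.2 = z.2.1 := σ.injective (r1.symm.trans q1)
        have a2 : z'.2.1 = z.2.2 := σ.injective (r2.symm.trans q2)
        have := hz2.2
        rw [a1, a2] at this
        exact lt_asymm this hz1.2
      · exfalso
        have a1 : z'.2.1 = z.2.2 := σ.injective (r1.symm.trans q1)
        have a2 : z'.2.2 = z.2.1 := σ.injective (r2.symm.trans q2)
        have := hz2.2
        rw [a1, a2] at this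
        exact lt_asymm this hz1.2
      · exact Prod.ext (σ.injective (r2.symm.trans q2)) (σ.injective (r1.symm.trans q1))
    obtain ⟨za, zb⟩ := z
    obtain ⟨za', zb'⟩ := z'
    simp only at hb1 hb2
    rw [hb1, hb2]

/-- The drawing with the two classes exchanged and every edge reversed. -/
def Drawing.swap {m n : ℕ} (D : Drawing m n) : Drawing n m where
  a := D.b
  b := D.a
  edge := fun e t => D.edge e.swap (1 - t)
  a_inj := D.b_inj
  b_inj := D.a_inj
  ab_ne := fun i j => (D.ab_ne j i).symm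
  cont := fun e => (D.cont e.swap).comp (by fun_prop)
    (fun t ht => ⟨by linarith [ht.2], by linarith [ht.1]⟩)
  start := fun e => by simp [D.finish]
  finish := fun e => by simp [D.start]
  simple := fun e t ht s hs he => by
    have := D.simple e.swap ⟨by linarith [ht.2], by linarith [ht.1]⟩
      ⟨by linarith [hs.2], by linarith [hs.1]⟩ he
    linarith
  avoid_a := fun e i hi => by
    obtain ⟨t, ht, he⟩ := hi
    exact D.avoid_b e.swap i ⟨1 - t, ⟨by linarith [ht.2], by linarith [ht.1]⟩, he⟩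
  avoid_b := fun e i hi => by
    obtain ⟨t, ht, he⟩ := hi
    exact D.avoid_a e.swap i ⟨1 - t, ⟨by linarith [ht.2], by linarith [ht.1]⟩, he⟩
  finite := D.finite.subset (by
    rintro z ⟨e, f, hef, ⟨t, ht, rfl⟩, ⟨s, hs, he⟩⟩
    exact ⟨e.swap, f.swap, fun h => hef (Prod.swap_injective h),
      ⟨1 - t, ⟨by linarith [ht.2], by linarith [ht.1]⟩, rfl⟩,
      ⟨1 - s, ⟨by linarith [hs.2], by linarith [hs.1]⟩, he⟩⟩)
  two_only := fun e f g h1 h2 h3 => by
    have key : ∀ e : Fin n × Fin m, (fun t => D.edge e.swap (1 - t)) '' Set.Ioo (0 : ℝ) 1 ⊆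
        D.edge e.swap '' Set.Ioo 0 1 := by
      rintro e z ⟨t, ht, rfl⟩
      exact ⟨1 - t, ⟨by linarith [ht.2], by linarith [ht.1]⟩, rfl⟩
    have := D.two_only e.swap f.swap g.swap (fun h => h1 (Prod.swap_injective h))
      (fun h => h2 (Prod.swap_injective h)) (fun h => h3 (Prod.swap_injective h))
    exact Set.subset_eq_empty (Set.inter_subset_inter (Set.inter_subset_inter (key e) (key f)) (key g)) this

lemma crossings_swap {m n : ℕ} (D : Drawing m n) : D.swap.crossings ⊆ D.crossings := by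
  rintro z ⟨e, f, hef, ⟨t, ht, rfl⟩, ⟨s, hs, he⟩⟩
  exact ⟨e.swap, f.swap, fun h => hef (Prod.swap_injective h),
    ⟨1 - t, ⟨by linarith [ht.2], by linarith [ht.1]⟩, rfl⟩,
    ⟨1 - s, ⟨by linarith [hs.2], by linarith [hs.1]⟩, he⟩⟩

/-- Zarankiewicz's bound for drawings with a colour class on an uncrossed arc. -/
theorem zarankiewicz_uncrossed_arc {m n : ℕ} (D : Drawing m n) (hD : D.ClassOnUncrossedArc) :
    m / 2 * ((m - 1) / 2) * (n / 2 * ((n - 1) / 2)) ≤ D.crossings.ncard := by
  obtain ⟨S, ⟨h, hS⟩, hor⟩ := hD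
  have hS' : h ⁻¹' segment01 = S := by
    rw [← hS, Set.preimage_image_eq _ h.injective]
  rcases hor with hu | hu
  · exact bound_of_left D h (hS' ▸ hu)
  · have hu' : D.swap.UncrossedThrough D.swap.a D.swap.b S := by
      refine ⟨hu.1, hu.2.1, fun e => ?_⟩
      apply Set.disjoint_of_subset_left _ (hu.2.2 e.swap)
      rintro z ⟨t, ht, rfl⟩
      exact ⟨1 - t, ⟨by linarith [ht.2], by linarith [ht.1]⟩, rfl⟩
    have := bound_of_left D.swap h (hS' ▸ hu')
    rw [mul_comm] at this
    exact this.trans (Set.ncard_le_ncard (crossings_swap D) D.finite)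

end Vale.Agent.P040
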