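import Mathlib
import Vale.Agent.P040.Defs

/-!
Plane trees and drawings with an uncrossed tree through a colour class.
-/

namespace Vale.Agent.P040

open Set

/-- A plane tree: the complement is path connected, and two distinct points of the set are joined
inside it by exactly one arc, which some homeomorphism of the plane straightens to a segment. -/
def IsPlaneTree (S : Set ℂ) : Prop :=
  IsPathConnected Sᶜ ∧ ∀ x ∈ S, ∀ y ∈ S, x ≠ y →
    (∃ h : ℂ ≃ₜ ℂ, h x = 0 ∧ h y = 1 ∧ h ⁻¹' segment01 ⊆ S) ∧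
    ∀ f g : ℝ → ℂ, ContinuousOn f (Icc 0 1) → ContinuousOn g (Icc 0 1) →
      InjOn f (Icc 0 1) → InjOn g (Icc 0 1) → f 0 = x → f 1 = y → g 0 = x → g 1 = y →
      f '' Icc 0 1 ⊆ S → g '' Icc 0 1 ⊆ S → f '' Icc 0 1 = g '' Icc 0 1

/-- One of the two colour classes lies on a tree that no edge crosses. -/
def Drawing.ClassOnUncrossedTree {m n : ℕ} (D : Drawing m n) : Prop :=
  ∃ S : Set ℂ, IsPlaneTree S ∧ (D.UncrossedThrough D.a D.b S ∨ D.UncrossedThrough D.b D.a S)

end Vale.Agent.P040
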