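import Mathlib
import Vale.Agent.P040.TreeDefs

/-!
Every straightenable arc is a plane tree.
-/

namespace Vale.Agent.P040

open Set Complex

lemma segment01_convex : Convex ℝ segment01 := by
  intro u hu v hv a b ha hb hab
  refine ⟨?_, ?_, ?_⟩
  · simp [hu.1, hv.1]
  · simp
    nlinarith [hu.2.1, hv.2.1]
  · simp
    nlinarith [hu.2.2, hv.2.2]

lemma isPathConnected_segment01_compl : IsPathConnected segment01ᶜ := by
  have line : ∀ u v : ℂ, (∀ t ∈ Icc (0 : ℝ) 1, (1 - t) • u + t • v ∉ segment01) →
      JoinedIn segment01ᶜ u v := by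
    intro u v h
    refine JoinedIn.ofLine (f := fun t : ℝ => (1 - t) • u + t • v) (by fun_prop) (by simp)
      (by simp) ?_
    rintro z ⟨t, ht, rfl⟩
    exact h t ht
  have key : ∀ u : ℂ, u.im ≠ 0 → JoinedIn segment01ᶜ u (-1) := by
    intro u hu
    refine line u (-1) fun t ht hs => ?_
    have h1 := hs.1
    simp at h1
    rcases h1 with h1 | h1
    · have : t = 1 := by linarith
      subst this
      have h2 := hs.2.1
      simp at h2
      linarith
    · exact hu h1
  refine ⟨-1, fun h => by have := h.2.1; simp at this; linarith, fun {u} hu => ?_⟩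
  apply JoinedIn.symm
  by_cases h0 : u.im = 0
  · by_cases h1 : u.re < 0
    · refine line u (-1) fun t ht hs => ?_
      have h2 := hs.2.1
      simp at h2
      rcases ht.1.eq_or_lt with e | e
      · subst e
        exact hu (by simpa using hs)
      · nlinarith [ht.2]
    · have h2 : 1 < u.re := by
        by_contra h2
        exact hu ⟨h0, not_lt.1 h1, not_lt.1 h2⟩
      refine (line u (u + I) fun t ht hs => ?_).trans (key (u + I) (by simp [h0]))
      have h3 := hs.2.2
      simp at h3
      linarith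
  · exact key u h0

/-- Every straightenable arc is a plane tree. -/
theorem isPlaneTree_of_isPlaneArc {S : Set ℂ} (hS : IsPlaneArc S) : IsPlaneTree S := by
  obtain ⟨h, hS⟩ := hS
  have hpre : S = h ⁻¹' segment01 := by rw [← hS, Set.preimage_image_eq _ h.injective]
  subst hpre
  refine ⟨?_, ?_⟩
  · have e : (h ⁻¹' segment01)ᶜ = h.symm '' segment01ᶜ := by
      rw [Homeomorph.image_symm]
      rfl
    rw [e]
    exact isPathConnected_segment01_compl.image h.symm.continuous
  intro x hx y hy hne
  have hd : h y - h x ≠ 0 := sub_ne_zero.2 fun e => hne (h.injective e).symm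
  refine ⟨?_, ?_⟩
  · refine ⟨h.trans ((Homeomorph.addRight (-h x)).trans
      (Homeomorph.mulRight₀ (h y - h x)⁻¹ (inv_ne_zero hd))), by simp, ?_, ?_⟩
    · simp [← sub_eq_add_neg, hd]
    · intro w hw
      set v := (h w + -h x) * (h y - h x)⁻¹ with hv
      have hv' : v ∈ segment01 := hw
      have e : h w = (1 - v.re) • h x + v.re • h y := by
        have : h w = h x + v * (h y - h x) := by rw [hv]; field_simp; ring
        rw [this, show v = ((v.re : ℝ) : ℂ) from Complex.ext (by simp) (by simp [hv'.1])]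
        simp [Complex.real_smul]
        ring
      show h w ∈ segment01
      rw [e]
      exact segment01_convex hx hy (by linarith [hv'.2.2]) hv'.2.1 (by ring)
  intro f g hfc hgc hfi hgi f0 f1 g0 g1 hfS hgS
  suffices H : ∀ k : ℝ → ℂ, ContinuousOn k (Icc 0 1) → InjOn k (Icc 0 1) → k 0 = x → k 1 = y →
      k '' Icc 0 1 ⊆ h ⁻¹' segment01 →
      k '' Icc 0 1 = {w | h w ∈ segment01 ∧ (h w).re ∈ uIcc (h x).re (h y).re} by
    rw [H f hfc hfi f0 f1 hfS, H g hgc hgi g0 g1 hgS]
  intro k kc ki k0 k1 kS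
  have rc : ContinuousOn (fun t => (h (k t)).re) (Icc 0 1) :=
    Complex.continuous_re.comp_continuousOn (h.continuous.comp_continuousOn kc)
  have inj' : ∀ t ∈ Icc (0 : ℝ) 1, ∀ w, h w ∈ segment01 → (h w).re = (h (k t)).re → w = k t := by
    intro t ht w hw he
    exact h.injective (Complex.ext he (hw.1.trans (kS ⟨t, ht, rfl⟩).1.symm))
  have ri : InjOn (fun t => (h (k t)).re) (Icc 0 1) := fun t ht s hs he =>
    ki ht hs (inj' s hs (k t) (kS ⟨t, ht, rfl⟩) he)
  ext w
  constructor
  · rintro ⟨t, ht, rfl⟩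
    refine ⟨kS ⟨t, ht, rfl⟩, ?_⟩
    rcases rc.strictMonoOn_of_injOn_Icc' zero_le_one ri with hm | hm
    · apply Icc_subset_uIcc
      constructor
      · rw [← k0]; exact hm.monotoneOn (left_mem_Icc.2 zero_le_one) ht ht.1
      · rw [← k1]; exact hm.monotoneOn ht (right_mem_Icc.2 zero_le_one) ht.2
    · apply Icc_subset_uIcc'
      constructor
      · rw [← k1]; exact hm.antitoneOn ht (right_mem_Icc.2 zero_le_one) ht.2
      · rw [← k0]; exact hm.antitoneOn (left_mem_Icc.2 zero_le_one) ht ht.1
  · rintro ⟨hw, hr⟩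
    have hsub : uIcc (h (k 0)).re (h (k 1)).re ⊆ (fun t => (h (k t)).re) '' uIcc (0 : ℝ) 1 :=
      intermediate_value_uIcc (f := fun t => (h (k t)).re) (by rwa [uIcc_of_le zero_le_one])
    rw [k0, k1] at hsub
    obtain ⟨t, ht, he⟩ := hsub hr
    rw [uIcc_of_le zero_le_one] at ht
    exact ⟨t, ht, (inj' t ht w hw he.symm).symm⟩

end Vale.Agent.P040
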