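import Mathlib
import Vale.Agent.P040.TreeDefs
import Vale.Agent.P040.Count
import Vale.Agent.P040.Chart

/-!
Plane trees: branches at a point, and the two forced configurations of six pairwise free arcs.
-/

namespace Vale.Agent.P040

open Set Complex

/-- An injective path in `S` from `x` to `y`. -/
def IsPathIn (S : Set ℂ) (x y : ℂ) (f : ℝ → ℂ) : Prop :=
  ContinuousOn f (Icc 0 1) ∧ InjOn f (Icc 0 1) ∧ f 0 = x ∧ f 1 = y ∧ f '' Icc 0 1 ⊆ S

/-- Every injective path in `S` from `x` to `y` passes through `p`. -/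
def OnArc (S : Set ℂ) (x y p : ℂ) : Prop :=
  ∀ f, IsPathIn S x y f → p ∈ f '' Icc 0 1

/-- The parametrised preimage of the segment. -/
noncomputable def chartPath (h : ℂ ≃ₜ ℂ) (t : ℝ) : ℂ := h.symm (t : ℂ)

lemma chartPath_isPathIn {S : Set ℂ} {h : ℂ ≃ₜ ℂ} {x y : ℂ} (hx : h x = 0) (hy : h y = 1)
    (hsub : h ⁻¹' segment01 ⊆ S) : IsPathIn S x y (chartPath h) := by
  refine ⟨(h.symm.continuous.comp Complex.continuous_ofReal).continuousOn, ?_, ?_, ?_, ?_⟩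
  · exact (h.symm.injective.comp Complex.ofReal_injective).injOn
  · simp [chartPath, ← hx]
  · simp [chartPath, ← hy]
  · rintro z ⟨t, ht, rfl⟩
    exact hsub (by simp [chartPath, segment01, ht.1, ht.2])

lemma chartPath_image (h : ℂ ≃ₜ ℂ) : chartPath h '' Icc 0 1 = h ⁻¹' segment01 := by
  ext z
  constructor
  · rintro ⟨t, ht, rfl⟩
    simp [chartPath, segment01, ht.1, ht.2]
  · intro hz
    refine ⟨(h z).re, ⟨hz.2.1, hz.2.2⟩, ?_⟩
    simp only [chartPath]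
    rw [show (((h z).re : ℝ) : ℂ) = h z from Complex.ext (by simp) (by simp [hz.1]),
      Homeomorph.symm_apply_apply]

lemma IsPlaneTree.exists_chart {S : Set ℂ} (hS : IsPlaneTree S) {x y : ℂ} (hx : x ∈ S)
    (hy : y ∈ S) (hne : x ≠ y) :
    ∃ h : ℂ ≃ₜ ℂ, h x = 0 ∧ h y = 1 ∧ h ⁻¹' segment01 ⊆ S :=
  (hS.2 x hx y hy hne).1

lemma IsPlaneTree.image_eq {S : Set ℂ} (hS : IsPlaneTree S) {x y : ℂ} (hx : x ∈ S)
    (hy : y ∈ S) (hne : x ≠ y) {f g : ℝ → ℂ} (hf : IsPathIn S x y f) (hg : IsPathIn S x y g) :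
    f '' Icc 0 1 = g '' Icc 0 1 :=
  (hS.2 x hx y hy hne).2 f g hf.1 hg.1 hf.2.1 hg.2.1 hf.2.2.1 hf.2.2.2.1 hg.2.2.1 hg.2.2.2.1
    hf.2.2.2.2 hg.2.2.2.2

lemma joinedIn_of_not_onArc {S : Set ℂ} {x y p : ℂ} (h : ¬ OnArc S x y p) :
    JoinedIn (S \ {p}) x y := by
  simp only [OnArc, not_forall] at h
  obtain ⟨f, hf, hp⟩ := h
  refine JoinedIn.ofLine hf.1 hf.2.2.1 hf.2.2.2.1 fun z hz => ⟨hf.2.2.2.2 hz, fun e => hp ?_⟩
  rw [← mem_singleton_iff.1 e]
  exact hz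

lemma onArc_interior {h : ℂ ≃ₜ ℂ} {S : Set ℂ} {x y p : ℂ} (hx : h x = 0) (hy : h y = 1)
    (hsub : h ⁻¹' segment01 ⊆ S) (hp : OnArc S x y p) (hpx : p ≠ x) (hpy : p ≠ y) :
    (h p).im = 0 ∧ 0 < (h p).re ∧ (h p).re < 1 := by
  have := hp _ (chartPath_isPathIn hx hy hsub)
  rw [chartPath_image] at this
  obtain ⟨h0, h1, h2⟩ := this
  refine ⟨h0, h1.lt_of_ne fun e => ?_, h2.lt_of_ne fun e => ?_⟩
  · exact hpx (h.injective (by rw [hx]; exact Complex.ext (by simp [← e]) (by simp [h0])))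
  · exact hpy (h.injective (by rw [hy]; exact Complex.ext (by simp [e]) (by simp [h0])))

/-- The branch structure of finitely many points of a plane tree. -/
noncomputable def treeBranches {S : Set ℂ} (hS : IsPlaneTree S) {m : ℕ} (a : Fin m → ℂ)
    (ainj : Function.Injective a) (ha : ∀ i, a i ∈ S) : Branches m where
  sb i u v := u ≠ i ∧ v ≠ i ∧ JoinedIn (S \ {a i}) (a u) (a v)
  refl {i u} hu := ⟨hu, hu, JoinedIn.refl ⟨ha u, fun e => hu (ainj (mem_singleton_iff.1 e))⟩⟩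
  symm h := ⟨h.2.1, h.1, h.2.2.symm⟩
  trans h h' := ⟨h.1, h'.2.1, h.2.2.trans h'.2.2⟩
  ne h := ⟨h.1, h.2.1⟩
  sep {i u z} hui hzi huz hn := by
    obtain ⟨h, hx, hy, hsub⟩ := hS.exists_chart (ha z) (ha u) (fun e => huz (ainj e).symm)
    have hon : OnArc S (a z) (a u) (a i) := by
      by_contra hno
      exact hn ⟨hzi, hui, joinedIn_of_not_onArc hno⟩
    obtain ⟨h0, h1, h2⟩ := onArc_interior hx hy hsub hon (fun e => hzi (ainj e).symm)
      (fun e => hui (ainj e).symm)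
    refine ⟨hzi.symm, huz, JoinedIn.ofLine
      (f := fun s : ℝ => chartPath h ((h (a i)).re + (1 - (h (a i)).re) * s)) ?_ ?_ ?_ ?_⟩
    · exact ((h.symm.continuous.comp Complex.continuous_ofReal).comp (by fun_prop)).continuousOn
    · simp only [mul_zero, add_zero, chartPath]
      rw [show (((h (a i)).re : ℝ) : ℂ) = h (a i) from Complex.ext (by simp) (by simp [h0]),
        Homeomorph.symm_apply_apply]
    · simp [chartPath, ← hy]
    · rintro w ⟨s, hs, rfl⟩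
      have hpos : 0 < (h (a i)).re + (1 - (h (a i)).re) * s := by
        nlinarith [hs.1]
      have hle : (h (a i)).re + (1 - (h (a i)).re) * s ≤ 1 := by nlinarith [hs.2]
      refine ⟨(chartPath_isPathIn hx hy hsub).2.2.2.2 ⟨_, ⟨hpos.le, hle⟩, rfl⟩, fun e => ?_⟩
      have e' := congrArg (fun w => (h w).re) (mem_singleton_iff.1 e)
      simp [chartPath, hx] at e'
      linarith

/-- Six free arcs from `0`, `c`, `1` to two points: the two middle arcs leave on different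
sides. -/
theorem six_free {gX gI gY kX kI kY : ℝ → ℂ} (hgX : SlitArc gX) (hgI : SlitArc gI)
    (hgY : SlitArc gY) (hkX : SlitArc kX) (hkI : SlitArc kI) (hkY : SlitArc kY) {c : ℝ}
    (hc0 : 0 < c) (hc1 : c < 1) (x0 : (gX 0).re = 0) (x0' : (kX 0).re = 0)
    (i0 : (gI 0).re = c) (i0' : (kI 0).re = c) (y0 : (gY 0).re = 1) (y0' : (kY 0).re = 1)
    {P P' : ℂ} (gX1 : gX 1 = P) (gI1 : gI 1 = P) (gY1 : gY 1 = P)
    (kX1 : kX 1 = P') (kI1 : kI 1 = P') (kY1 : kY 1 = P')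
    (d1 : ∀ t ∈ Ioc (0 : ℝ) 1, ∀ s ∈ Ioc (0 : ℝ) 1, gX t ≠ kI s)
    (d2 : ∀ t ∈ Ioc (0 : ℝ) 1, ∀ s ∈ Ioc (0 : ℝ) 1, gI t ≠ kX s)
    (d3 : ∀ t ∈ Ioc (0 : ℝ) 1, ∀ s ∈ Ioc (0 : ℝ) 1, gI t ≠ kY s)
    (d4 : ∀ t ∈ Ioc (0 : ℝ) 1, ∀ s ∈ Ioc (0 : ℝ) 1, gY t ≠ kI s)
    (d5 : ∀ t ∈ Ioc (0 : ℝ) 1, ∀ s ∈ Ioc (0 : ℝ) 1, gX t ≠ kY s)
    (d6 : ∀ t ∈ Ioc (0 : ℝ) 1, ∀ s ∈ Ioc (0 : ℝ) 1, gY t ≠ kX s) :
    side gI ≠ side kI := by
  intro hs
  set U : (ℝ → ℂ) → ℤ := fun g => uNum (discImage g) (pos (g 0).re (side g)) (slit P') with hU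
  set V : (ℝ → ℂ) → ℤ := fun g => vNum (discImage g) (pos (g 0).re (side g)) (slit P) with hV
  have eqn : ∀ g k : ℝ → ℂ, SlitArc g → SlitArc k → g 1 = P → k 1 = P' →
      pos (g 0).re (side g) ≠ pos (k 0).re (side k) →
      (∀ t ∈ Ioc (0 : ℝ) 1, ∀ s ∈ Ioc (0 : ℝ) 1, g t ≠ k s) →
      V k = U g + (if pos (k 0).re (side k) < pos (g 0).re (side g) then 1 else 0) := by
    intro g k hg hk g1 k1 hne hd
    have hdis : ∀ t ∈ Ioc (0 : ℝ) 1, ∀ s ∈ Ioc (0 : ℝ) 1, discImage g t ≠ discImage k s := by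
      intro t ht s hs' he
      simp only [discImage, if_neg (not_le.2 ht.1), if_neg (not_le.2 hs'.1)] at he
      exact hd t ht s hs' (slit_inj (hg.off t ht) (hk.off s hs') he)
    have := winding_of_disjoint (discImage_arc hg) (discImage_arc hk) hne hdis
    simpa [discImage, g1, k1, hU, hV, not_le.2 (zero_lt_one : (0 : ℝ) < 1)] using this
  have end0 : ∀ g : ℝ → ℂ, (g 0).re = 0 → side g = false := fun g hg => by
    by_contra hb
    have := (side_true (Bool.not_eq_false _ ▸ hb : side g = true)).1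
    linarith
  have O : ∀ g k : ℝ → ℂ, 0 ≤ (g 0).re → (g 0).re < (k 0).re → (k 0).re ≤ 1 →
      (pos (g 0).re (side g) < pos (k 0).re (side k) ↔ side g = false) ∧
      (pos (k 0).re (side k) < pos (g 0).re (side g) ↔ side g = true) :=
    fun g k a b c => pos_order a b c (fun e => (side_true e).1)
  have ne1 : ∀ g k : ℝ → ℂ, 0 ≤ (g 0).re → (g 0).re < (k 0).re → (k 0).re ≤ 1 →
      pos (g 0).re (side g) ≠ pos (k 0).re (side k) := by
    intro g k a b c he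
    obtain ⟨o1, o2⟩ := O g k a b c
    rw [he] at o1 o2
    cases hb : side g with
    | false => exact lt_irrefl _ (o1.2 hb)
    | true => exact lt_irrefl _ (o2.2 hb)
  have a1 := O gX kI x0.ge (by linarith) (by linarith)
  have a2 := O kX gI x0'.ge (by linarith) (by linarith)
  have a3 := O gI kY (by linarith) (by linarith) (by linarith)
  have a4 := O kI gY (by linarith) (by linarith) (by linarith)
  have a5 := O gX kY x0.ge (by linarith) (by linarith)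
  have a6 := O kX gY x0'.ge (by linarith) (by linarith)
  have e1 := eqn gX kI hgX hkI gX1 kI1 (ne1 gX kI x0.ge (by linarith) (by linarith)) d1
  have e2 := eqn gI kX hgI hkX gI1 kX1 (ne1 kX gI x0'.ge (by linarith) (by linarith)).symm d2
  have e3 := eqn gI kY hgI hkY gI1 kY1 (ne1 gI kY (by linarith) (by linarith) (by linarith)) d3
  have e4 := eqn gY kI hgY hkI gY1 kI1
    (ne1 kI gY (by linarith) (by linarith) (by linarith)).symm d4
  have e5 := eqn gX kY hgX hkY gX1 kY1 (ne1 gX kY x0.ge (by linarith) (by linarith)) d5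
  have e6 := eqn gY kX hgY hkX gY1 kX1 (ne1 kX gY x0'.ge (by linarith) (by linarith)).symm d6
  rw [if_congr a1.2 rfl rfl] at e1
  rw [if_congr a2.1 rfl rfl] at e2
  rw [if_congr a3.2 rfl rfl] at e3
  rw [if_congr a4.1 rfl rfl] at e4
  rw [if_congr a5.2 rfl rfl] at e5
  rw [if_congr a6.1 rfl rfl] at e6
  rw [end0 gX x0] at e1 e5
  rw [end0 kX x0'] at e2 e6
  rw [hs] at e3
  cases hk : side kI <;> simp [hk] at e1 e2 e3 e4 e5 e6 <;> omega

end Vale.Agent.P040
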