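import Mathlib
import Vale.Agent.P040.TreeGeom
import Vale.Agent.P040.Main

/-!
The crossing bound for drawings with an uncrossed tree through a colour class.
-/

namespace Vale.Agent.P040

open Set Finset

lemma segment01_eq : segment01 = unitSeg := rfl

/-- The connecting path between two points outside `S`. -/
noncomputable def connPath {S : Set ℂ} (hS : IsPlaneTree S) {u v : ℂ} (hu : u ∉ S) (hv : v ∉ S) :
    ℝ → ℂ :=
  (hS.1.joinedIn u hu v hv).somePath.extend

lemma connPath_spec {S : Set ℂ} (hS : IsPlaneTree S) {u v : ℂ} (hu : u ∉ S) (hv : v ∉ S) :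
    Continuous (connPath hS hu hv) ∧ connPath hS hu hv 0 = u ∧ connPath hS hu hv 1 = v ∧
      ∀ t, connPath hS hu hv t ∉ S := by
  refine ⟨Path.continuous_extend _, Path.extend_zero _, Path.extend_one _, fun t => ?_⟩
  exact (hS.1.joinedIn u hu v hv).somePath_mem _

section

variable {m n : ℕ} (D : Drawing m n) {S : Set ℂ} (hS : IsPlaneTree S)
  (hu : D.UncrossedThrough D.a D.b S)

/-- The loop of two stars at a vertex. -/
noncomputable def starLoop (i : Fin m) (q q' : Fin n) : ℝ → ℂ :=
  concat3 (D.edge (i, q)) (connPath hS (hu.2.1 q) (hu.2.1 q')) (D.edge (i, q'))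

include hu in
lemma edge_off {e : Fin m × Fin n} {t : ℝ} (ht : t ∈ Set.Ioc (0 : ℝ) 1) : D.edge e t ∉ S := by
  rcases ht.2.eq_or_lt with h1 | h1
  · rw [h1, D.finish]; exact hu.2.1 e.2
  · exact Set.disjoint_left.1 (hu.2.2 e) ⟨t, ⟨ht.1, h1⟩, rfl⟩

lemma starLoop_spec (i : Fin m) (q q' : Fin n) :
    ContinuousOn (starLoop D hS hu i q q') (Set.Icc 0 1) ∧
      starLoop D hS hu i q q' 0 = starLoop D hS hu i q q' 1 ∧
      ∀ t ∈ Set.Icc (0 : ℝ) 1, starLoop D hS hu i q q' t ∈ S →
        starLoop D hS hu i q q' t = D.a i := by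
  obtain ⟨c1, c2, c3, c4⟩ := connPath_spec hS (hu.2.1 q) (hu.2.1 q')
  have h1 : D.edge (i, q) 1 = connPath hS (hu.2.1 q) (hu.2.1 q') 0 := by rw [D.finish, c2]
  have h2 : connPath hS (hu.2.1 q) (hu.2.1 q') 1 = D.edge (i, q') 1 := by rw [D.finish, c3]
  refine ⟨concat3_continuousOn h1 h2 (D.cont _) c1.continuousOn (D.cont _), ?_, ?_⟩
  · simp only [starLoop, concat3_zero, concat3_one, D.start]
  · intro t ht hin
    have onEdge : ∀ e : Fin m × Fin n, e.1 = i → ∀ s ∈ Set.Icc (0 : ℝ) 1,
        D.edge e s ∈ S → D.edge e s = D.a i := by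
      intro e he s hs hin
      rcases hs.1.eq_or_lt with h0 | h0
      · rw [← h0, D.start, he]
      · exact absurd hin (edge_off D hu ⟨h0, hs.2⟩)
    unfold starLoop at hin ⊢
    rcases concat3_cases _ _ _ h1 h2 ht with ⟨s, hs, e⟩ | ⟨s, hs, e⟩ | ⟨s, hs, e⟩ <;>
      rw [e] at hin ⊢
    · exact onEdge _ rfl s hs hin
    · exact absurd hin (c4 s)
    · exact onEdge _ rfl s hs hin

/-- Winding of the star loop around the point of another vertex. -/
noncomputable def starWind (i : Fin m) (q q' : Fin n) (z : Fin m) : ℝ :=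
  wind (starLoop D hS hu i q q') (D.a z)

lemma starWind_branch {i u v : Fin m} (q q' : Fin n)
    (h : (treeBranches hS D.a D.a_inj hu.1).sb i u v) :
    starWind D hS hu i q q' u = starWind D hS hu i q q' v := by
  have hj : JoinedIn (S \ {D.a i}) (D.a u) (D.a v) := h.2.2
  obtain ⟨c1, c2, c3⟩ := starLoop_spec D hS hu i q q'
  have := wind_const c1 c2 hj.somePath.continuous_extend.continuousOn (fun t ht s hs e => by
    have hm : hj.somePath.extend s ∈ S \ {D.a i} := by
      rw [Path.extend_apply _ hs]; exact hj.somePath_mem _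
    exact hm.2 (Set.mem_singleton_iff.2 (by
      rw [← e]; exact c3 t ht (by rw [e]; exact hm.1))))
  rwa [Path.extend_zero, Path.extend_one] at this

include hu in
lemma edge_slitArc {h : ℂ ≃ₜ ℂ} (hsub : h ⁻¹' segment01 ⊆ S) {e : Fin m × Fin n}
    (hmem : h (D.a e.1) ∈ segment01) : SlitArc (fun t => h (D.edge e t)) := by
  refine ⟨h.continuous.comp_continuousOn (D.cont e), ?_, ?_⟩
  · simp only [D.start]; exact hmem
  · intro t ht hs
    exact edge_off D hu ht (hsub hs)

lemma side_iff_starWind {h : ℂ ≃ₜ ℂ} {x y i : Fin m} (hx : h (D.a x) = 0) (hy : h (D.a y) = 1)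
    (hsub : h ⁻¹' segment01 ⊆ S) (hon : OnArc S (D.a x) (D.a y) (D.a i)) (hix : i ≠ x)
    (hiy : i ≠ y) (q q' : Fin n) :
    side (fun t => h (D.edge (i, q) t)) = side (fun t => h (D.edge (i, q') t)) ↔
      starWind D hS hu i q q' x = starWind D hS hu i q q' y := by
  obtain ⟨h0, h1, h2⟩ := onArc_interior hx hy hsub hon (fun e => hix (D.a_inj e))
    (fun e => hiy (D.a_inj e))
  obtain ⟨c1, c2, c3, c4⟩ := connPath_spec hS (hu.2.1 q) (hu.2.1 q')
  have hmem : h (D.a i) ∈ segment01 := ⟨h0, h1.le, h2.le⟩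
  have hr : h (D.a i) = (((h (D.a i)).re : ℝ) : ℂ) := Complex.ext (by simp) (by simp [h0])
  have := side_iff_wind hx hy (edge_slitArc D hu hsub (e := (i, q)) hmem)
    (edge_slitArc D hu hsub (e := (i, q')) hmem)
    (c := fun t => h (connPath hS (hu.2.1 q) (hu.2.1 q') t))
    (h.continuous.comp c1).continuousOn (fun t _ hs => c4 t (hsub hs))
    (by simp only [D.finish, c2]) (by simp only [D.finish, c3]) h1 h2
    (by simp only [D.start]; exact hr) (by simp only [D.start]; exact hr)
  rw [this]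
  have hΓ : (fun t => h.symm (concat3 (fun t => h (D.edge (i, q) t))
      (fun t => h (connPath hS (hu.2.1 q) (hu.2.1 q') t)) (fun t => h (D.edge (i, q') t)) t))
      = starLoop D hS hu i q q' := by
    funext t
    simp only [starLoop, concat3]
    split_ifs <;> simp
  rw [hΓ]
  rfl

lemma disjoint_images {h : ℂ → ℂ} (hinj : Function.Injective h) {k l : Fin m} {q q' : Fin n}
    (hq : q ≠ q') (hno : ¬ Crosses D (k, q) (l, q')) :
    ∀ t ∈ Set.Ioc (0 : ℝ) 1, ∀ s ∈ Set.Ioc (0 : ℝ) 1,
      h (D.edge (k, q) t) ≠ h (D.edge (l, q') s) := by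
  intro t ht s hs he
  have e' := hinj he
  rcases ht.2.eq_or_lt with t1 | t1 <;> rcases hs.2.eq_or_lt with s1 | s1
  · rw [t1, s1, D.finish, D.finish] at e'
    exact hq (D.b_inj e')
  · rw [t1, D.finish] at e'
    exact D.avoid_b (l, q') q ⟨s, ⟨hs.1, s1⟩, e'.symm⟩
  · rw [s1, D.finish] at e'
    exact D.avoid_b (k, q) q' ⟨t, ⟨ht.1, t1⟩, e'⟩
  · exact hno ⟨D.edge (k, q) t, ⟨t, ⟨ht.1, t1⟩, rfl⟩, ⟨s, ⟨hs.1, s1⟩, e'.symm⟩⟩

lemma BothFree.flip {q q' : Fin n} {i l : Fin m} (h : BothFree D q q' i l) :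
    BothFree D q q' l i := ⟨h.2, h.1⟩

open Classical in
/-- The exceptional pairs of two stars. -/
noncomputable def exceptional (q q' : Fin n) : Finset (Fin m × Fin m) :=
  Finset.univ.filter (fun p => (treeBranches hS D.a D.a_inj hu.1).Anc p.1 p.2 ∧
    starWind D hS hu p.1 q q' p.2 ≠
      starWind D hS hu p.1 q q' ((treeBranches hS D.a D.a_inj hu.1).big p.1))

lemma middle_case {q q' : Fin n} (hq : q ≠ q') {u w v : Fin m} (hwu : w ≠ u) (hwv : w ≠ v)
    (huv : u ≠ v) (hon : OnArc S (D.a u) (D.a v) (D.a w)) (f1 : BothFree D q q' u w)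
    (f2 : BothFree D q q' w v) (f3 : BothFree D q q' u v) :
    (w, u) ∈ exceptional D hS hu q q' ∨ (w, v) ∈ exceptional D hS hu q q' := by
  classical
  obtain ⟨h, hx, hy, hsub⟩ := hS.exists_chart (hu.1 u) (hu.1 v) (fun e => huv (D.a_inj e))
  obtain ⟨h0, h1, h2⟩ := onArc_interior hx hy hsub hon (fun e => hwu (D.a_inj e))
    (fun e => hwv (D.a_inj e))
  have mu : h (D.a u) ∈ segment01 := by rw [hx]; simp [segment01]
  have mv : h (D.a v) ∈ segment01 := by rw [hy]; simp [segment01]
  have mw : h (D.a w) ∈ segment01 := ⟨h0, h1.le, h2.le⟩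
  have hdiff := six_free (edge_slitArc D hu hsub (e := (u, q)) mu)
    (edge_slitArc D hu hsub (e := (w, q)) mw) (edge_slitArc D hu hsub (e := (v, q)) mv)
    (edge_slitArc D hu hsub (e := (u, q')) mu) (edge_slitArc D hu hsub (e := (w, q')) mw)
    (edge_slitArc D hu hsub (e := (v, q')) mv) (c := (h (D.a w)).re) h1 h2
    (by simp [D.start, hx]) (by simp [D.start, hx]) (by simp [D.start]) (by simp [D.start])
    (by simp [D.start, hy]) (by simp [D.start, hy])
    (P := h (D.b q)) (P' := h (D.b q'))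
    (by simp [D.finish]) (by simp [D.finish]) (by simp [D.finish])
    (by simp [D.finish]) (by simp [D.finish]) (by simp [D.finish])
    (disjoint_images D h.injective hq f1.1) (disjoint_images D h.injective hq f1.2)
    (disjoint_images D h.injective hq f2.1) (disjoint_images D h.injective hq f2.2)
    (disjoint_images D h.injective hq f3.1) (disjoint_images D h.injective hq f3.2)
  have hW : starWind D hS hu w q q' u ≠ starWind D hS hu w q q' v := fun e =>
    hdiff ((side_iff_starWind D hS hu hx hy hsub hon hwu hwv q q').2 e)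
  set B := treeBranches hS D.a D.a_inj hu.1 with hB
  by_cases bu : B.sb w (B.big w) u
  · right
    simp only [exceptional, Finset.mem_filter, Finset.mem_univ, true_and]
    refine ⟨⟨hwv.symm, fun bv => hW ?_⟩, fun e => hW ?_⟩
    · exact (starWind_branch D hS hu q q' bu).symm.trans (starWind_branch D hS hu q q' bv)
    · rw [e, starWind_branch D hS hu q q' bu]
  by_cases bv : B.sb w (B.big w) v
  · left
    simp only [exceptional, Finset.mem_filter, Finset.mem_univ, true_and]
    refine ⟨⟨hwu.symm, bu⟩, fun e => hW ?_⟩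
    rw [e, starWind_branch D hS hu q q' bv]
  simp only [exceptional, Finset.mem_filter, Finset.mem_univ, true_and]
  by_cases e : starWind D hS hu w q q' u = starWind D hS hu w q q' (B.big w)
  · right
    exact ⟨⟨hwv.symm, bv⟩, fun e' => hW (e.trans e'.symm)⟩
  · exact Or.inl ⟨⟨hwu.symm, bu⟩, e⟩

include hS hu in
lemma tripod_case {q q' : Fin n} (hq : q ≠ q') {x y z : Fin m} (hxy : x ≠ y) (hzx : z ≠ x)
    (hzy : z ≠ y) (n1 : ¬ OnArc S (D.a x) (D.a y) (D.a z))
    (n2 : ¬ OnArc S (D.a z) (D.a y) (D.a x)) (n3 : ¬ OnArc S (D.a z) (D.a x) (D.a y))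
    (f1 : BothFree D q q' x z) (f2 : BothFree D q q' z y) (f3 : BothFree D q q' x y) : False := by
  obtain ⟨h, hx, hy, hsub⟩ := hS.exists_chart (hu.1 x) (hu.1 y) (fun e => hxy (D.a_inj e))
  obtain ⟨h', hz', hx', hsub'⟩ := hS.exists_chart (hu.1 z) (hu.1 x) (fun e => hzx (D.a_inj e))
  have pT := chartPath_isPathIn hx hy hsub
  have pL := chartPath_isPathIn hz' hx' hsub'
  have hzT : D.a z ∉ h ⁻¹' segment01 := by
    intro hzT
    refine n1 fun f hf => ?_
    rw [hS.image_eq (hu.1 x) (hu.1 y) (fun e => hxy (D.a_inj e)) hf pT, chartPath_image]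
    exact hzT
  set f := chartPath h' with hf
  have hfc : Continuous f := h'.symm.continuous.comp Complex.continuous_ofReal
  set Z := Set.Icc (0 : ℝ) 1 ∩ f ⁻¹' (h ⁻¹' segment01) with hZ
  have hclosed : IsClosed segment01 := by
    have : segment01 = Complex.im ⁻¹' {0} ∩ Complex.re ⁻¹' Set.Icc 0 1 := by
      ext w; simp [segment01, and_assoc]
    rw [this]
    exact (isClosed_singleton.preimage Complex.continuous_im).inter
      (isClosed_Icc.preimage Complex.continuous_re)
  have hZc : IsClosed Z := isClosed_Icc.inter ((hclosed.preimage h.continuous).preimage hfc)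
  have hZne : Z.Nonempty := ⟨1, ⟨zero_le_one, le_rfl⟩, by
    show h (f 1) ∈ segment01
    rw [pL.2.2.2.1, hx]; simp [segment01]⟩
  have hZb : BddBelow Z := ⟨0, fun t ht => ht.1.1⟩
  obtain ⟨⟨t00, t01⟩, hT0⟩ := hZc.csInf_mem hZne hZb
  set t0 := sInf Z with ht0
  have t0pos : 0 < t0 := by
    refine lt_of_le_of_ne t00 fun e => hzT ?_
    rw [← pL.2.2.1, e]
    exact hT0
  have before : ∀ t, 0 ≤ t → t < t0 → f t ∉ h ⁻¹' segment01 := fun t h1 h2 h3 =>
    absurd (csInf_le hZb ⟨⟨h1, h2.le.trans t01⟩, h3⟩) (not_le.2 h2)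
  obtain ⟨q0, q1, q2⟩ : (h (f t0)).im = 0 ∧ 0 ≤ (h (f t0)).re ∧ (h (f t0)).re ≤ 1 := hT0
  set c := (h (f t0)).re with hc
  have hcne0 : c ≠ 0 := by
    intro e
    have hft : f t0 = D.a x := h.injective (by
      rw [hx]; exact Complex.ext (by simp [← hc, e]) (by simp [q0]))
    have t1 : t0 = 1 := pL.2.1 ⟨t00, t01⟩ ⟨zero_le_one, le_rfl⟩ (by rw [hft, pL.2.2.2.1])
    -- the concatenation through `x` is the arc from `z` to `y`
    set g : ℝ → ℂ := fun t => if t ≤ 1 / 2 then f (2 * t) else chartPath h (2 * t - 1) with hg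
    have hgc : Continuous g := by
      apply Continuous.if_le (hfc.comp (by fun_prop))
        ((h.symm.continuous.comp Complex.continuous_ofReal).comp (by fun_prop))
        continuous_id continuous_const
      intro t (ht : t = 1 / 2)
      subst ht
      norm_num [Function.comp_apply]
      exact pL.2.2.2.1.trans pT.2.2.1.symm
    have first : ∀ t, 0 ≤ t → t ≤ 1 / 2 → g t ∈ h ⁻¹' segment01 → t = 1 / 2 := by
      intro t a b hin
      simp only [hg, if_pos b] at hin
      by_contra hne
      have : t < 1 / 2 := lt_of_le_of_ne b hne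
      exact before (2 * t) (by linarith) (by linarith) hin
    have hgP : IsPathIn S (D.a z) (D.a y) g := by
      refine ⟨hgc.continuousOn, ?_, ?_, ?_, ?_⟩
      · intro t ht s hs he
        have mem : ∀ r, 1 / 2 < r → r ≤ 1 → g r ∈ h ⁻¹' segment01 := fun r a b => by
          simp only [hg, if_neg (not_le.2 a)]
          rw [← chartPath_image]
          exact ⟨2 * r - 1, ⟨by linarith, by linarith⟩, rfl⟩
        by_cases a : t ≤ 1 / 2 <;> by_cases b : s ≤ 1 / 2
        · simp only [hg, if_pos a, if_pos b] at he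
          have := pL.2.1 ⟨by linarith [ht.1], by linarith⟩ ⟨by linarith [hs.1], by linarith⟩ he
          linarith
        · exfalso
          have hh := first t ht.1 a (he ▸ mem s (not_le.1 b) hs.2)
          subst hh
          simp only [hg, if_pos (le_refl (1 / 2 : ℝ)), if_neg b] at he
          norm_num at he
          rw [pL.2.2.2.1, ← pT.2.2.1] at he
          have := pT.2.1 ⟨le_rfl, zero_le_one⟩
            ⟨by linarith [not_le.1 b], by linarith [hs.2]⟩ he
          linarith [not_le.1 b]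
        · exfalso
          have hh := first s hs.1 b (he ▸ mem t (not_le.1 a) ht.2)
          subst hh
          simp only [hg, if_pos (le_refl (1 / 2 : ℝ)), if_neg a] at he
          norm_num at he
          rw [pL.2.2.2.1, ← pT.2.2.1] at he
          have := pT.2.1 ⟨by linarith [not_le.1 a], by linarith [ht.2]⟩
            ⟨le_rfl, zero_le_one⟩ he
          linarith [not_le.1 a]
        · simp only [hg, if_neg a, if_neg b] at he
          have := pT.2.1 ⟨by linarith [not_le.1 a], by linarith [ht.2]⟩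
            ⟨by linarith [not_le.1 b], by linarith [hs.2]⟩ he
          linarith
      · simp only [hg]
        norm_num
        exact pL.2.2.1
      · simp only [hg]
        norm_num
        exact pT.2.2.2.1
      · rintro w ⟨t, ht, rfl⟩
        simp only [hg]
        split_ifs with a
        · exact pL.2.2.2.2 ⟨2 * t, ⟨by linarith [ht.1], by linarith⟩, rfl⟩
        · exact pT.2.2.2.2 ⟨2 * t - 1, ⟨by linarith [not_le.1 a], by linarith [ht.2]⟩, rfl⟩
    refine n2 fun k hk => ?_
    rw [hS.image_eq (hu.1 z) (hu.1 y) (fun e => hzy (D.a_inj e)) hk hgP]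
    refine ⟨1 / 2, ⟨by norm_num, by norm_num⟩, ?_⟩
    simp only [hg]
    norm_num
    exact pL.2.2.2.1
  have hcne1 : c ≠ 1 := by
    intro e
    have hft : f t0 = D.a y := h.injective (by
      rw [hy]; exact Complex.ext (by simp [← hc, e]) (by simp [q0]))
    refine n3 fun k hk => ?_
    rw [hS.image_eq (hu.1 z) (hu.1 x) (fun e => hzx (D.a_inj e)) hk pL]
    exact ⟨t0, ⟨t00, t01⟩, hft⟩
  -- the arcs from the branch point through `z`
  set V : Fin n → ℝ → ℂ := fun p t =>
    if t ≤ 1 / 2 then h (f (t0 * (1 - 2 * t))) else h (D.edge (z, p) (2 * t - 1)) with hV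
  have hVarc : ∀ p, SlitArc (V p) := by
    intro p
    refine ⟨?_, ?_, ?_⟩
    · have A : ContinuousOn (V p) (Set.Icc 0 (1 / 2)) :=
        ((h.continuous.comp (hfc.comp (by fun_prop : Continuous fun t : ℝ =>
          t0 * (1 - 2 * t)))).continuousOn).congr (fun t ht => by simp only [hV, if_pos ht.2]; rfl)
      have B : ContinuousOn (V p) (Set.Icc (1 / 2) 1) := by
        refine ((h.continuous.comp_continuousOn (D.cont (z, p))).comp
          (f := fun t : ℝ => 2 * t - 1) (by fun_prop)
          (fun t ht => ⟨by linarith [ht.1], by linarith [ht.2]⟩)).congr (fun t ht => ?_)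
        by_cases a : t ≤ 1 / 2
        · have : t = 1 / 2 := le_antisymm a ht.1
          subst this
          simp only [hV, if_pos (le_refl (1 / 2 : ℝ)), Function.comp_apply]
          norm_num [D.start]
          exact pL.2.2.1
        · simp only [hV, if_neg a, Function.comp_apply]
      have := A.union_of_isClosed B isClosed_Icc isClosed_Icc
      rwa [Set.Icc_union_Icc_eq_Icc (by norm_num) (by norm_num)] at this
    · simp only [hV, if_pos (by norm_num : (0 : ℝ) ≤ 1 / 2), mul_zero, sub_zero, mul_one]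
      exact ⟨q0, q1, q2⟩
    · intro t ht hin
      simp only [hV] at hin
      split_ifs at hin with a
      · exact before _ (by nlinarith) (by nlinarith [ht.1]) hin
      · exact edge_off D hu (e := (z, p)) ⟨by linarith [not_le.1 a], by linarith [ht.2]⟩
          (hsub hin)
  have sideEq : side (V q) = side (V q') := by
    have e0 : V q 0 = V q' 0 := by simp [hV]
    have ev : ∀ᶠ t in nhdsWithin (0 : ℝ) (Set.Ioi 0), V q t = V q' t := by
      filter_upwards [Ioc_mem_nhdsGT (show (0 : ℝ) < 1 / 2 by norm_num)] with t ht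
      simp only [hV, if_pos ht.2]
    have hiff : (∀ᶠ t in nhdsWithin (0 : ℝ) (Set.Ioi 0), (V q t).im < 0) ↔
        ∀ᶠ t in nhdsWithin (0 : ℝ) (Set.Ioi 0), (V q' t).im < 0 :=
      Filter.eventually_congr (ev.mono fun t ht => by rw [ht])
    have hre : (V q 0).re = (V q' 0).re := congrArg Complex.re e0
    unfold side
    exact decide_eq_decide.2 (by rw [hre, hiff])
  have mx : h (D.a x) ∈ segment01 := by rw [hx]; simp [segment01]
  have my : h (D.a y) ∈ segment01 := by rw [hy]; simp [segment01]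
  have legS : ∀ t, 0 < t → t ≤ 1 / 2 → f (t0 * (1 - 2 * t)) ∈ S := fun t a b =>
    pL.2.2.2.2 ⟨_, ⟨by nlinarith, by nlinarith⟩, rfl⟩
  have dis : ∀ (p p' : Fin n), p ≠ p' → ∀ k, ¬ Crosses D (z, p) (k, p') →
      ∀ t ∈ Set.Ioc (0 : ℝ) 1, ∀ s ∈ Set.Ioc (0 : ℝ) 1, V p t ≠ h (D.edge (k, p') s) := by
    intro p p' hp k hno t ht s hs he
    simp only [hV] at he
    split_ifs at he with a
    · exact edge_off D hu hs (h.injective he ▸ legS t ht.1 a)
    · exact disjoint_images D h.injective hp hno (2 * t - 1)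
        ⟨by linarith [not_le.1 a], by linarith [ht.2]⟩ s hs he
  have hcross : ∀ e e' : Fin m × Fin n, ¬ Crosses D e e' → ¬ Crosses D e' e :=
    fun e e' hh hc => hh (hc.symm' D)
  refine six_free (edge_slitArc D hu hsub (e := (x, q)) mx) (hVarc q)
    (edge_slitArc D hu hsub (e := (y, q)) my)
    (edge_slitArc D hu hsub (e := (x, q')) mx) (hVarc q')
    (edge_slitArc D hu hsub (e := (y, q')) my) (c := c)
    (lt_of_le_of_ne q1 (Ne.symm hcne0)) (lt_of_le_of_ne q2 hcne1)
    (by simp [D.start, hx]) (by simp [D.start, hx])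
    (by simp [hV, ← hc]) (by simp [hV, ← hc])
    (by simp [D.start, hy]) (by simp [D.start, hy])
    (P := h (D.b q)) (P' := h (D.b q'))
    (by simp [D.finish]) (by norm_num [hV, D.finish]) (by simp [D.finish])
    (by simp [D.finish]) (by norm_num [hV, D.finish]) (by simp [D.finish])
    (fun t ht s hs e => dis q' q hq.symm x (hcross _ _ f1.1) s hs t ht e.symm)
    (dis q q' hq x f1.2) (dis q q' hq y f2.1)
    (fun t ht s hs e => dis q' q hq.symm y (hcross _ _ f2.2) s hs t ht e.symm)
    (disjoint_images D h.injective hq f3.1) (disjoint_images D h.injective hq f3.2) sideEq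

include hS hu in
open Classical in
/-- The bound when the first class lies on the tree. -/
theorem tree_bound_left :
    m / 2 * ((m - 1) / 2) * (n / 2 * ((n - 1) / 2)) ≤ D.crossings.ncard := by
  set B := treeBranches hS D.a D.a_inj hu.1 with hB
  set P := (Finset.univ : Finset (Fin n × Fin n)).filter (fun p => p.1 < p.2) with hP
  set adj : Fin n × Fin n → Fin m → Fin m → Prop := fun p => BothFree D p.1 p.2 with hadj
  set M := m / 2 * ((m - 1) / 2) with hM
  set F := n / 2 * ((n - 1) / 2) with hF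
  have step : ∀ p ∈ P, M ≤ (nonAdj (adj p) Finset.univ).card +
      (exceptional D hS hu p.1 p.2).card := by
    intro p hp
    have hq : p.1 ≠ p.2 := by
      simp only [hP, Finset.mem_filter] at hp
      exact hp.2.ne
    refine mantel_exceptions (adj p) (fun _ _ h => BothFree.flip D h) _ ?_
    intro x i y hxi hiy f1 f2 f3
    have hxy : x ≠ y := (hxi.trans hiy).ne
    by_cases o1 : OnArc S (D.a x) (D.a y) (D.a i)
    · rcases middle_case D hS hu hq hxi.ne' hiy.ne hxy o1 f1 f2 f3 with e | e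
      · exact Or.inr (Or.inl e)
      · exact Or.inr (Or.inr (Or.inl e))
    by_cases o2 : OnArc S (D.a i) (D.a y) (D.a x)
    · rcases middle_case D hS hu hq hxi.ne hxy hiy.ne o2 (BothFree.flip D f1) f3 f2 with e | e
      · exact Or.inl e
      · exact Or.inr (Or.inr (Or.inr (Or.inr (Or.inl e))))
    by_cases o3 : OnArc S (D.a i) (D.a x) (D.a y)
    · rcases middle_case D hS hu hq hiy.ne' hxy.symm hxi.ne' o3 f2
        (BothFree.flip D f3) (BothFree.flip D f1) with e | e
      · exact Or.inr (Or.inr (Or.inr (Or.inl e)))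
      · exact Or.inr (Or.inr (Or.inr (Or.inr (Or.inr e))))
    exact (tripod_case D hS hu hq hxy hxi.ne' hiy.ne o1 o2 o3 f1 f2 f3).elim
  set Rall := (Finset.univ : Finset (Fin m × Fin m)).filter (fun r => B.Anc r.1 r.2) with hRall
  have hexc : ∑ p ∈ P, (exceptional D hS hu p.1 p.2).card + Rall.card * F
      ≤ Rall.card * P.card := by
    have e1 : ∑ p ∈ P, (exceptional D hS hu p.1 p.2).card = ∑ r ∈ Rall,
        (P.filter (fun p => starWind D hS hu r.1 p.1 p.2 r.2 ≠
          starWind D hS hu r.1 p.1 p.2 (B.big r.1))).card := by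
      simp only [exceptional, Finset.card_filter]
      rw [Finset.sum_comm, hRall, Finset.sum_filter]
      refine Finset.sum_congr rfl fun r _ => ?_
      by_cases hr : B.Anc r.1 r.2
      · simp [hr, ← hB]
      · simp [hr, ← hB]
    rw [e1, ← smul_eq_mul, ← smul_eq_mul, ← Finset.sum_const, ← Finset.sum_const,
      ← Finset.sum_add_distrib]
    refine Finset.sum_le_sum fun r hr => ?_
    simp only [hRall, Finset.mem_filter] at hr
    obtain ⟨-, hne, hnb⟩ := hr
    have hbig := (B.big_spec hne).1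
    have hne' : r.2 ≠ B.big r.1 := fun e => hnb (by rw [← e]; exact B.refl hne)
    obtain ⟨h, hx, hy, hsub⟩ := hS.exists_chart (hu.1 r.2) (hu.1 (B.big r.1))
      (fun e => hne' (D.a_inj e))
    have hon : OnArc S (D.a r.2) (D.a (B.big r.1)) (D.a r.1) := by
      by_contra hno
      exact hnb (B.symm ⟨hne, hbig, joinedIn_of_not_onArc hno⟩)
    set s : Fin n → Bool := fun k => side (fun t => h (D.edge (r.1, k) t)) with hs
    have hsame := same_pairs_lb n s
    have hsub2 : (P.filter (fun p => starWind D hS hu r.1 p.1 p.2 r.2 ≠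
          starWind D hS hu r.1 p.1 p.2 (B.big r.1))) ⊆ P.filter (fun p => ¬ s p.1 = s p.2) := by
      intro p hp
      simp only [Finset.mem_filter] at hp ⊢
      exact ⟨hp.1, fun e => hp.2
        ((side_iff_starWind D hS hu hx hy hsub hon hne.symm hbig.symm p.1 p.2).1 e)⟩
    have := Finset.card_le_card hsub2
    have hsplit := Finset.card_filter_add_card_filter_not (s := P) (fun p => s p.1 = s p.2)
    have heq : P.filter (fun p => s p.1 = s p.2) = (Finset.univ : Finset (Fin n × Fin n)).filter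
        (fun p => p.1 < p.2 ∧ s p.1 = s p.2) := by
      rw [hP, Finset.filter_filter]
    rw [heq] at hsplit
    omega
  have hR : Rall.card ≤ M := B.card_anc_pairs
  have hsum := Finset.sum_le_sum step
  rw [Finset.sum_add_distrib, Finset.sum_const, smul_eq_mul] at hsum
  have hFP : F ≤ P.card := by
    refine (same_pairs_lb n (fun _ => true)).trans (Finset.card_le_card ?_)
    intro p hp
    simp only [hP, Finset.mem_filter] at hp ⊢
    exact ⟨hp.1, hp.2.1⟩
  have lower : M * F ≤ ∑ p ∈ P, (nonAdj (adj p) Finset.univ).card := by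
    obtain ⟨e, he⟩ := Nat.exists_eq_add_of_le hR
    obtain ⟨d, hd⟩ := Nat.exists_eq_add_of_le hFP
    rw [hd] at hsum hexc
    nlinarith
  refine lower.trans ?_
  rw [← Finset.card_sigma]
  set X := P.sigma fun p => nonAdj (adj p) Finset.univ with hX
  have hex : ∀ z ∈ X, ∃ w : ℂ, ∃ e f : Fin m × Fin n,
      w ∈ D.edge e '' Set.Ioo 0 1 ∧ w ∈ D.edge f '' Set.Ioo 0 1 ∧
      e.2 = z.1.1 ∧ f.2 = z.1.2 ∧
      ((e.1 = z.2.1 ∧ f.1 = z.2.2) ∨ (e.1 = z.2.2 ∧ f.1 = z.2.1)) := by
    intro z hz
    simp only [hX, Finset.mem_sigma, nonAdj, Finset.mem_filter, hadj, BothFree,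
      not_and_or, not_not] at hz
    rcases hz.2.2.2 with ⟨w, hw⟩ | ⟨w, hw⟩
    · exact ⟨w, (z.2.1, z.1.1), (z.2.2, z.1.2), hw.1, hw.2, rfl, rfl, Or.inl ⟨rfl, rfl⟩⟩
    · exact ⟨w, (z.2.2, z.1.1), (z.2.1, z.1.2), hw.1, hw.2, rfl, rfl, Or.inr ⟨rfl, rfl⟩⟩
  rcases X.eq_empty_or_nonempty with hX0 | ⟨z0, -⟩
  · simp [hX0]
  haveI : Nonempty (Fin m × Fin n) := ⟨(z0.2.1, z0.1.1)⟩
  choose! w e f we wf he hf hor using hex
  have hne : ∀ z ∈ X, e z ≠ f z := by
    intro z hz hef
    have hlt : z.1.1 < z.1.2 := by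
      simp only [hX, hP, Finset.mem_sigma, Finset.mem_filter] at hz
      exact hz.1.2
    rw [← he z hz, ← hf z hz, hef] at hlt
    exact lt_irrefl _ hlt
  rw [← Set.ncard_coe_finset]
  refine Set.ncard_le_ncard_of_injOn w ?_ ?_ D.finite
  · intro z hz
    exact ⟨e z, f z, hne z hz, we z hz, wf z hz⟩
  · intro z hz z' hz' hw
    have hz1 : z.1.1 < z.1.2 ∧ z.2.1 < z.2.2 := by
      simp only [hX, hP, Finset.mem_coe, Finset.mem_sigma, Finset.mem_filter, nonAdj] at hz
      exact ⟨hz.1.2, hz.2.2.1⟩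
    have hz2 : z'.1.1 < z'.1.2 ∧ z'.2.1 < z'.2.2 := by
      simp only [hX, hP, Finset.mem_coe, Finset.mem_sigma, Finset.mem_filter, nonAdj] at hz'
      exact ⟨hz'.1.2, hz'.2.2.1⟩
    have pick : ∀ g, w z ∈ D.edge g '' Set.Ioo 0 1 → g = e z ∨ g = f z := by
      intro g hg
      by_contra hno
      simp only [not_or] at hno
      have := D.two_only (e z) (f z) g (hne z hz) (Ne.symm hno.1) (Ne.symm hno.2)
      exact Set.eq_empty_iff_forall_notMem.1 this (w z) ⟨⟨we z hz, wf z hz⟩, hg⟩
    have ne' := hne z' hz'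
    have heq : e z' = e z ∧ f z' = f z := by
      rcases pick (e z') (hw ▸ we z' hz') with p1 | p1 <;>
        rcases pick (f z') (hw ▸ wf z' hz') with p2 | p2
      · exact absurd (p1.trans p2.symm) ne'
      · exact ⟨p1, p2⟩
      · exfalso
        have a1 : z'.1.1 = z.1.2 := by rw [← he z' hz', p1, hf z hz]
        have a2 : z'.1.2 = z.1.1 := by rw [← hf z' hz', p2, he z hz]
        have := hz2.1
        rw [a1, a2] at this
        exact lt_asymm this hz1.1
      · exact absurd (p1.trans p2.symm) ne'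
    have hb1 : z'.1 = z.1 := Prod.ext
      (by rw [← he z' hz', heq.1, he z hz]) (by rw [← hf z' hz', heq.2, hf z hz])
    have hb2 : z'.2 = z.2 := by
      have o := hor z hz
      have o' := hor z' hz'
      rw [heq.1, heq.2] at o'
      rcases o with ⟨r1, r2⟩ | ⟨r1, r2⟩ <;> rcases o' with ⟨s1, s2⟩ | ⟨s1, s2⟩
      · exact Prod.ext (s1.symm.trans r1) (s2.symm.trans r2)
      · exfalso
        have := hz2.2
        rw [s2.symm.trans r2, s1.symm.trans r1] at this
        exact lt_asymm this hz1.2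
      · exfalso
        have := hz2.2
        rw [s1.symm.trans r1, s2.symm.trans r2] at this
        exact lt_asymm this hz1.2
      · exact Prod.ext (s2.symm.trans r2) (s1.symm.trans r1)
    obtain ⟨za, zb⟩ := z
    obtain ⟨za', zb'⟩ := z'
    simp only at hb1 hb2
    rw [hb1, hb2]

end

/-- Zarankiewicz's bound for drawings with a colour class on an uncrossed tree. -/
theorem zarankiewicz_uncrossed_tree {m n : ℕ} (D : Drawing m n) (hD : D.ClassOnUncrossedTree) :
    m / 2 * ((m - 1) / 2) * (n / 2 * ((n - 1) / 2)) ≤ D.crossings.ncard := by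
  obtain ⟨S, hS, hor⟩ := hD
  rcases hor with hu | hu
  · exact tree_bound_left D hS hu
  · have hu' : D.swap.UncrossedThrough D.swap.a D.swap.b S := by
      refine ⟨hu.1, hu.2.1, fun e => ?_⟩
      apply Set.disjoint_of_subset_left _ (hu.2.2 e.swap)
      rintro z ⟨t, ht, rfl⟩
      exact ⟨1 - t, ⟨by linarith [ht.2], by linarith [ht.1]⟩, rfl⟩
    have := tree_bound_left D.swap hS hu'
    rw [mul_comm] at this
    exact this.trans (Set.ncard_le_ncard (crossings_swap D) D.finite)

end Vale.Agent.P040
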